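import Vale.Agent.P095.General.Core.Layer
import Vale.Agent.P095.WeightsMain

/-! One layer with the weights: the polynomial, unit variance and the distance of two maps. -/

noncomputable section

open Finset
open scoped ComplexConjugate

namespace Vale.Agent.P095.General.Core

open Vale.Agent.P095 (Poly evA evR quad push Dom)

universe u v

/-- A weight polynomial is bounded on matrices with entries in the unit interval. -/
lemma exists_evR_bound {P : Type v} (p : Poly P) :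
    ∃ B : ℝ, 0 ≤ B ∧ ∀ K : P → P → ℝ, (∀ a b, |K a b| ≤ 1) → |evR K p| ≤ B := by
  induction p using FreeAlgebra.induction with
  | grade0 r => exact ⟨|r|, abs_nonneg r, fun K _ => by simp⟩
  | grade1 ab => exact ⟨1, zero_le_one, fun K hK => by
    rw [show ab = (ab.1, ab.2) from rfl, evR_ι]; exact hK ab.1 ab.2⟩
  | mul p q hp hq =>
    obtain ⟨B, hB, h⟩ := hp
    obtain ⟨B', hB', h'⟩ := hq
    exact ⟨B * B', mul_nonneg hB hB', fun K hK => by
      rw [map_mul, abs_mul]; exact mul_le_mul (h K hK) (h' K hK) (abs_nonneg _) hB⟩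
  | add p q hp hq =>
    obtain ⟨B, hB, h⟩ := hp
    obtain ⟨B', hB', h'⟩ := hq
    exact ⟨B + B', add_nonneg hB hB', fun K hK => by
      rw [map_add]; exact (abs_add_le _ _).trans (add_le_add (h K hK) (h' K hK))⟩

variable {M : Type u} [CStarAlgebra M] {ι : Type v} [Fintype ι] {L m : ℕ} {τ C : ℝ}
  (d : Gauss M ι (Fin L × Fin m) τ C) {P : Type v}

/-- The nonnegative kernel in the algebra. -/
def fejM (l : Fin L) (Q : ℕ) (g h : ι) : M :=
  ((1 / Q : ℝ) : ℂ) • (1 : M) + ∑ i ∈ range (Q - 1),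
    ((cw Q (i + 1) * (((Q : ℝ) - 1) / (2 * Q)) : ℝ) : ℂ) •
      (kbarM d l g h ^ (i + 1) + kbarM d l h g ^ (i + 1))

/-- The weight of one index. -/
def wgt (l : Fin L) (Q : ℕ) (j : P → ι) (pw : P → Poly P) (s : P) : M :=
  evA (fun a b => fejM d l Q (j a) (j b)) (pw s)

lemma fejM_mem (l : Fin L) (Q : ℕ) (g h : ι) : fejM d l Q g h ∈ kalg d :=
  add_mem ((kalg d).smul_mem (one_mem _) _) (sum_mem fun _ _ => (kalg d).smul_mem
    (add_mem (pow_mem (kbarM_mem d l g h) _) (pow_mem (kbarM_mem d l h g) _)) _)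

lemma evA_mem_sa {P : Type v} {K : P → P → M} (hK : ∀ a b, K a b ∈ kalg d)
    (hKs : ∀ a b, IsSelfAdjoint (K a b)) (p : Poly P) :
    evA K p ∈ kalg d ∧ IsSelfAdjoint (evA K p) := by
  induction p using FreeAlgebra.induction with
  | grade0 r =>
    rw [AlgHom.commutes, IsScalarTower.algebraMap_apply ℝ ℂ M]
    refine ⟨(kalg d).algebraMap_mem _, ?_⟩
    rw [isSelfAdjoint_iff, ← algebraMap_star_comm, Complex.coe_algebraMap, Complex.star_def,
      Complex.conj_ofReal]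
  | grade1 ab =>
    rw [show ab = (ab.1, ab.2) from rfl, evA_ι]
    exact ⟨hK _ _, hKs _ _⟩
  | mul p q hp hq =>
    rw [map_mul]
    exact ⟨mul_mem hp.1 hq.1, (hp.2.commute_iff hq.2).1 (kalg_comm d hp.1 hq.1)⟩
  | add p q hp hq =>
    rw [map_add]
    exact ⟨add_mem hp.1 hq.1, hp.2.add hq.2⟩

lemma fejM_sa (l : Fin L) (Q : ℕ) (g h : ι) : IsSelfAdjoint (fejM d l Q g h) := by
  have hk : ∀ g h, star (kbarM d l g h) = kbarM d l h g := fun g h => by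
    simp [kbarM, star_sum, d.K_star]
  rw [isSelfAdjoint_iff, fejM]
  simp only [star_add, star_sum, star_smul, star_one, star_pow, hk, Complex.star_def,
    Complex.conj_ofReal]
  congr 1
  exact sum_congr rfl fun i _ => by rw [add_comm (_ ^ (i + 1))]

lemma chi_fejM (χ : ↥(kalg d) →⋆ₐ[ℂ] ℂ) (l : Fin L) {Q : ℕ} (hm : 0 < m) (g h : ι) :
    χ ⟨fejM d l Q g h, fejM_mem d l Q g h⟩ = ((fej Q (chiBar d χ l g h) : ℝ) : ℂ) := by
  rw [show (⟨fejM d l Q g h, fejM_mem d l Q g h⟩ : ↥(kalg d)) = ((1 / Q : ℝ) : ℂ) • 1 +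
      ∑ i ∈ range (Q - 1), ((cw Q (i + 1) * (((Q : ℝ) - 1) / (2 * Q)) : ℝ) : ℂ) •
        ((⟨kbarM d l g h, kbarM_mem d l g h⟩ : ↥(kalg d)) ^ (i + 1)
          + (⟨kbarM d l h g, kbarM_mem d l h g⟩ : ↥(kalg d)) ^ (i + 1)) from
    Subtype.ext (by simp [fejM])]
  simp only [map_add, map_smul, map_sum, map_pow, map_one, smul_eq_mul, mul_one, chi_kbarM]
  have e : ∀ i : ℕ, chiBar d χ l g h ^ (i + 1) + chiBar d χ l h g ^ (i + 1)
      = ((2 * (chiBar d χ l g h ^ (i + 1)).re : ℝ) : ℂ) := fun i => by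
    rw [← (isKer_chiBar d χ l hm).herm g h, ← map_pow, Complex.add_conj]
  simp only [e, ← Complex.ofReal_mul, ← Complex.ofReal_sum, ← Complex.ofReal_add]
  congr 1
  simp only [fej, cov, Complex.re_sum, Complex.re_ofReal_mul, add_div, mul_sum, sum_div]
  congr 1
  exact sum_congr rfl fun i _ => by ring

lemma wgt_mem_sa (l : Fin L) (Q : ℕ) (j : P → ι) (pw : P → Poly P) (s : P) :
    wgt d l Q j pw s ∈ kalg d ∧ IsSelfAdjoint (wgt d l Q j pw s) :=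
  evA_mem_sa d (fun _ _ => fejM_mem d l Q _ _) (fun _ _ => fejM_sa d l Q _ _) _

lemma chi_wgt (χ : ↥(kalg d) →⋆ₐ[ℂ] ℂ) (l : Fin L) {Q : ℕ} (hm : 0 < m) (j : P → ι)
    (pw : P → Poly P) (s : P) :
    χ ⟨wgt d l Q j pw s, (wgt_mem_sa d l Q j pw s).1⟩
      = ((evR (fun a b => fej Q (chiBar d χ l (j a) (j b))) (pw s) : ℝ) : ℂ) := by
  have : IsClosed (kalg d : Set M) := isClosed_kalg d
  let Ks : P → P → ↥(kalg d) := fun a b => ⟨fejM d l Q (j a) (j b), fejM_mem d l Q _ _⟩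
  have e : (⟨wgt d l Q j pw s, (wgt_mem_sa d l Q j pw s).1⟩ : ↥(kalg d)) = evA Ks (pw s) :=
    Subtype.ext (map_evA (kalg d).subtype.toAlgHom Ks (pw s)).symm
  rw [e]
  have h := AlgHom.congr_fun (show ((χ.toAlgHom).restrictScalars ℝ).comp (evA Ks) =
      Complex.ofRealAm.comp (evR fun a b => fej Q (chiBar d χ l (j a) (j b))) from
    FreeAlgebra.hom_ext (funext fun ab => by
      obtain ⟨a, b⟩ := ab
      simp [evA_ι, evR_ι, Ks, chi_fejM d χ l hm])) (pw s)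
  simpa using h

variable [DecidableEq ι] [Fintype P]

omit [Fintype P] in
lemma norm_wgt_le (l : Fin L) {Q : ℕ} (hQ : 2 ≤ Q) (hm : 0 < m) (j : P → ι) (pw : P → Poly P)
    {Bw : ℝ} (hBw0 : 0 ≤ Bw)
    (hBw : ∀ s, ∀ K : P → P → ℝ, (∀ a b, |K a b| ≤ 1) → |evR K (pw s)| ≤ Bw) (s : P) :
    ‖wgt d l Q j pw s‖ ≤ Bw ∧ ∀ χ : ↥(kalg d) →⋆ₐ[ℂ] ℂ,
      ‖χ ⟨wgt d l Q j pw s, (wgt_mem_sa d l Q j pw s).1⟩‖ ≤ Bw := by
  have h : ∀ χ : ↥(kalg d) →⋆ₐ[ℂ] ℂ,
      ‖χ ⟨wgt d l Q j pw s, (wgt_mem_sa d l Q j pw s).1⟩‖ ≤ Bw := fun χ => by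
    rw [chi_wgt d χ l hm, Complex.norm_real, Real.norm_eq_abs]
    have hD := (isKer_chiBar d χ l hm).fej_mem_Dom hQ
    exact hBw s _ fun a b => abs_le.2
      ⟨by linarith [hD.2.1 (j a) (j b)], le_one_of_mem_Dom hD (j a) (j b)⟩
  exact ⟨norm_le_of_char (isClosed_kalg d) (fun x hx y hy => kalg_comm d hx hy) _ hBw0 h, h⟩

variable [Nontrivial M]

/-- Unit variance. -/
lemma vark'_one (l : Fin L) {Q : ℕ} (hQ : 2 ≤ Q) (hQm : Q ≤ m) (hτ : τ ≤ 1) (hτ0 : 0 ≤ τ)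
    (j : P → ι) (pw : P → Poly P) {Bw : ℝ} (hBw0 : 0 ≤ Bw)
    (hBw : ∀ s, ∀ K : P → P → ℝ, (∀ a b, |K a b| ≤ 1) → |evR K (pw s)| ≤ Bw)
    {e : ℝ} (he : 0 ≤ e) (hp : ∀ K ∈ Dom P, |quad K (fun a => evR K (pw a)) - 1| ≤ e) :
    ‖vark' d l Q (wgt d l Q j pw) j - 1‖ ≤ e + ((Fintype.card P : ℝ) * Bw) ^ 2 *
      (2 * (Q : ℝ) ^ 2 / m + 2 / Q + Q * (τ * 3 ^ Q)) := by
  set W : ℝ := (Fintype.card P : ℝ) * Bw with hW
  have hW0 : 0 ≤ W := by positivity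
  have hn := norm_wgt_le d l hQ (by omega) j pw hBw0 hBw
  have h1 : ‖vark d l Q (wgt d l Q j pw) j - (1 : ℂ) • (1 : M)‖
      ≤ e + W * W * (2 * (Q : ℝ) ^ 2 / m + 2 / Q) := by
    refine vark_bound d l hQ hQm j (fun s => (wgt_mem_sa d l Q j pw s).1)
      (fun s => (wgt_mem_sa d l Q j pw s).2) W hW0 (fun χ => ?_) 1 he fun χ => ?_
    · exact (sum_le_sum fun s _ => (hn s).2 χ).trans_eq (by simp [hW])
    · have hD := pull_mem_Dom ((isKer_chiBar d χ l (by omega : 0 < m)).fej_mem_Dom hQ) j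
      rw [← Complex.ofReal_one, ← Complex.ofReal_sub, Complex.norm_real, Real.norm_eq_abs]
      simp only [chi_wgt d χ l (by omega : 0 < m), Complex.ofReal_re]
      exact hp _ hD
  have h2 := vark'_near d l hQ hQm hτ hτ0 (wgt d l Q j pw) j
    (show ∑ s, ‖wgt d l Q j pw s‖ ≤ W from
      (sum_le_sum fun s _ => (hn s).1).trans_eq (by simp [hW]))
  rw [one_smul] at h1
  refine (norm_sub_le_norm_sub_add_norm_sub _ _ _).trans ((add_le_add h2 h1).trans_eq ?_)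
  ring

/-- The weights of the difference of two maps. -/
def dwgt (l : Fin L) (Q : ℕ) (j₁ j₂ : P → ι) (pw : P → Poly P) : P ⊕ P → M :=
  Sum.elim (wgt d l Q j₁ pw) fun s => -wgt d l Q j₂ pw s

omit [DecidableEq ι] [Fintype P] [Nontrivial M] in
lemma dwgt_mem_sa (l : Fin L) (Q : ℕ) (j₁ j₂ : P → ι) (pw : P → Poly P) :
    ∀ x, dwgt d l Q j₁ j₂ pw x ∈ kalg d ∧ IsSelfAdjoint (dwgt d l Q j₁ j₂ pw x) := by
  rintro (s | s)
  · exact wgt_mem_sa d l Q j₁ pw s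
  · exact ⟨neg_mem (wgt_mem_sa d l Q j₂ pw s).1, (wgt_mem_sa d l Q j₂ pw s).2.neg⟩

/-- The variance of a difference. -/
lemma vark'_diff (l : Fin L) {Q : ℕ} (hQ : 2 ≤ Q) (hQm : Q ≤ m) (hτ : τ ≤ 1) (hτ0 : 0 ≤ τ)
    (j₁ j₂ : P → ι) (pw : P → Poly P) {Bw : ℝ} (hBw0 : 0 ≤ Bw)
    (hBw : ∀ s, ∀ K : P → P → ℝ, (∀ a b, |K a b| ≤ 1) → |evR K (pw s)| ≤ Bw)
    {b : ℝ} (hb : 0 ≤ b) (hp : ∀ K ∈ Dom ι, quad K (fun k =>
      push j₁ (fun a => evR (fun s t => K (j₁ s) (j₁ t)) (pw a)) k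
        - push j₂ (fun a => evR (fun s t => K (j₂ s) (j₂ t)) (pw a)) k) ≤ b) :
    ‖vark' d l Q (dwgt d l Q j₁ j₂ pw) (Sum.elim j₁ j₂)‖ ≤ b +
      (2 * ((Fintype.card P : ℝ) * Bw)) ^ 2 *
        (2 * (Q : ℝ) ^ 2 / m + 2 / Q + Q * (τ * 3 ^ Q)) := by
  set W : ℝ := 2 * ((Fintype.card P : ℝ) * Bw) with hW
  have hW0 : 0 ≤ W := by positivity
  have hm : 0 < m := by omega
  have n1 := norm_wgt_le d l hQ hm j₁ pw hBw0 hBw
  have n2 := norm_wgt_le d l hQ hm j₂ pw hBw0 hBw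
  have hms := dwgt_mem_sa d l Q j₁ j₂ pw
  have h1 : ‖vark d l Q (dwgt d l Q j₁ j₂ pw) (Sum.elim j₁ j₂) - (0 : ℂ) • (1 : M)‖
      ≤ b + W * W * (2 * (Q : ℝ) ^ 2 / m + 2 / Q) := by
    refine vark_bound d l hQ hQm _ (fun x => (hms x).1) (fun x => (hms x).2) W hW0 (fun χ => ?_) 0
      hb fun χ => ?_
    · rw [Fintype.sum_sum_type]
      refine (add_le_add (sum_le_sum fun s _ => (n1 s).2 χ) (sum_le_sum fun s _ => ?_)).trans_eq
        (by simp [hW]; ring : (∑ _s : P, Bw) + ∑ _s : P, Bw = W)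
      refine le_of_eq_of_le ?_ ((n2 s).2 χ)
      rw [← norm_neg, ← map_neg]
      congr 2
      exact Subtype.ext (neg_neg _)
    · have hk := isKer_chiBar d χ l hm
      set K : ι → ι → ℝ := fun g h => fej Q (chiBar d χ l g h) with hK
      have hDom : K ∈ Dom ι := hk.fej_mem_Dom hQ
      set a₁ : P → ℝ := fun a => evR (fun s t => K (j₁ s) (j₁ t)) (pw a) with ha₁
      set a₂ : P → ℝ := fun a => evR (fun s t => K (j₂ s) (j₂ t)) (pw a) with ha₂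
      have e1 : ∀ s, (χ ⟨dwgt d l Q j₁ j₂ pw (Sum.inl s), (hms _).1⟩).re = a₁ s := fun s => by
        show (χ ⟨wgt d l Q j₁ pw s, (wgt_mem_sa d l Q j₁ pw s).1⟩).re = _
        rw [chi_wgt d χ l hm, Complex.ofReal_re]
      have e2 : ∀ s, (χ ⟨dwgt d l Q j₁ j₂ pw (Sum.inr s), (hms _).1⟩).re = -a₂ s := fun s => by
        rw [show (⟨dwgt d l Q j₁ j₂ pw (Sum.inr s), (hms _).1⟩ : ↥(kalg d))
          = -⟨wgt d l Q j₂ pw s, (wgt_mem_sa d l Q j₂ pw s).1⟩ from rfl, map_neg, Complex.neg_re,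
          chi_wgt d χ l hm, Complex.ofReal_re]
      rw [sub_zero, Complex.norm_real, Real.norm_eq_abs]
      simp only [Fintype.sum_sum_type, e1, e2, Sum.elim_inl, Sum.elim_inr]
      have e3 : (∑ x, ((∑ y, a₁ x * a₁ y * fej Q (chiBar d χ l (j₁ x) (j₁ y))) +
            ∑ y, a₁ x * -a₂ y * fej Q (chiBar d χ l (j₁ x) (j₂ y)))) +
          ∑ x, ((∑ y, -a₂ x * a₁ y * fej Q (chiBar d χ l (j₂ x) (j₁ y))) +
            ∑ y, -a₂ x * -a₂ y * fej Q (chiBar d χ l (j₂ x) (j₂ y)))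
          = quad K (fun k => push j₁ a₁ k - push j₂ a₂ k) := by
        simp only [quad, sub_mul, mul_sub, Finset.sum_sub_distrib, mul_assoc, ← Finset.mul_sum,
          sum_push_mul]
        simp only [hK, neg_mul, mul_neg, Finset.sum_neg_distrib, Finset.sum_add_distrib, neg_neg]
        ring
      rw [e3, abs_of_nonneg (show 0 ≤ quad K _ from hDom.2.2.2 _)]
      exact hp K hDom
  have h2 := vark'_near d l hQ hQm hτ hτ0 (dwgt d l Q j₁ j₂ pw) (Sum.elim j₁ j₂) (W := W) (by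
    rw [Fintype.sum_sum_type]
    refine (add_le_add (sum_le_sum fun s _ => (n1 s).1) (sum_le_sum fun s _ => ?_)).trans_eq
      (by simp [hW]; ring : (∑ _s : P, Bw) + ∑ _s : P, Bw = W)
    exact (norm_neg _).trans_le (n2 s).1)
  rw [zero_smul, sub_zero] at h1
  refine (norm_le_norm_add_norm_sub' _ (vark d l Q (dwgt d l Q j₁ j₂ pw) (Sum.elim j₁ j₂))).trans
    ((add_le_add h1 h2).trans_eq ?_)
  ring

end Vale.Agent.P095.General.Core
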