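import Mathlib
import Vale.Agent.P095.Defs

/-!
Numerical facts for the chaos core: the Fejer kernel, elementary symmetric means, and the kernel
in the domain of the weights.
-/

noncomputable section

open Finset
open scoped ComplexOrder ComplexConjugate

namespace Vale.Agent.P095.General.Core

/-- The coefficients of the chaos degrees. -/
def cw (Q j : ℕ) : ℝ := 2 * ((Q : ℝ) - j) / ((Q : ℝ) * ((Q : ℝ) - 1))

/-- The covariance of the chaos as a series in one kernel entry. -/
def cov (Q : ℕ) (z : ℂ) : ℂ := ∑ i ∈ range (Q - 1), (cw Q (i + 1) : ℂ) * z ^ (i + 1)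

/-- The nonnegative kernel. -/
def fej (Q : ℕ) (z : ℂ) : ℝ := (1 + ((Q : ℝ) - 1) * (cov Q z).re) / Q

lemma cw_nonneg {Q j : ℕ} (hQ : 2 ≤ Q) (hj : j ≤ Q) : 0 ≤ cw Q j := by
  have h1 : (2 : ℝ) ≤ Q := by exact_mod_cast hQ
  have h2 : (j : ℝ) ≤ Q := by exact_mod_cast hj
  exact div_nonneg (by linarith) (mul_nonneg (by linarith) (by linarith))

/-- The Fejer identity on the disk. -/
lemma fejer_identity (z : ℂ) (Q : ℕ) :
    (Q : ℝ) + 2 * ∑ i ∈ range Q, ((Q : ℝ) - (i + 1)) * (z ^ (i + 1)).re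
      = Complex.normSq (∑ a ∈ range Q, z ^ a)
        + (1 - Complex.normSq z) * ∑ i ∈ range Q, Complex.normSq (∑ a ∈ range i, z ^ a) := by
  induction Q with
  | zero => simp
  | succ Q ih =>
    have e1 : ∑ a ∈ range (Q + 1), z ^ a = 1 + z * ∑ a ∈ range Q, z ^ a := by
      rw [sum_range_succ', pow_zero, add_comm, mul_sum]
      simp only [pow_succ']
    have e2 : (z * ∑ a ∈ range Q, z ^ a).re = ∑ i ∈ range Q, (z ^ (i + 1)).re := by
      rw [mul_sum, Complex.re_sum]
      simp only [pow_succ']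
    have e3 : ∑ i ∈ range (Q + 1), (((Q + 1 : ℕ) : ℝ) - (i + 1)) * (z ^ (i + 1)).re
        = ∑ i ∈ range Q, ((Q : ℝ) - (i + 1)) * (z ^ (i + 1)).re
          + ∑ i ∈ range Q, (z ^ (i + 1)).re := by
      rw [sum_range_succ, ← sum_add_distrib]
      push_cast
      rw [show (Q : ℝ) + 1 - ((Q : ℝ) + 1) = 0 by ring, zero_mul, add_zero]
      exact sum_congr rfl fun i _ => by ring
    rw [e3, e1, Complex.normSq_add, Complex.normSq_one, Complex.normSq_mul,
      sum_range_succ (fun i => Complex.normSq (∑ a ∈ range i, z ^ a)), ← e2]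
    simp only [one_mul, Complex.conj_re]
    push_cast
    linarith [ih]

lemma cov_one {Q : ℕ} (hQ : 2 ≤ Q) : ∑ i ∈ range (Q - 1), cw Q (i + 1) = 1 := by
  obtain ⟨q, rfl⟩ : ∃ q, Q = q + 1 := ⟨Q - 1, by omega⟩
  have h1 : (1 : ℝ) ≤ q := by exact_mod_cast (show 1 ≤ q by omega)
  simp only [Nat.add_sub_cancel, cw, ← sum_div]
  rw [div_eq_one_iff_eq (by push_cast; nlinarith)]
  have h2 : ∀ n : ℕ, ∑ i ∈ range n, (2 * ((q : ℝ) + 1 - (i + 1))) = n * (2 * q - (n - 1)) := by
    intro n
    induction n with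
    | zero => simp
    | succ n ih => rw [sum_range_succ, ih]; push_cast; ring
  push_cast
  rw [h2]
  ring

lemma fej_nonneg {Q : ℕ} (hQ : 2 ≤ Q) {z : ℂ} (hz : ‖z‖ ≤ 1) : 0 ≤ fej Q z := by
  have hQ2 : (2 : ℝ) ≤ Q := by exact_mod_cast hQ
  refine div_nonneg ?_ (by linarith)
  have h := fejer_identity z Q
  have h0 : 0 ≤ (Q : ℝ) + 2 * ∑ i ∈ range Q, ((Q : ℝ) - (i + 1)) * (z ^ (i + 1)).re := by
    rw [h]
    refine add_nonneg (Complex.normSq_nonneg _)
      (mul_nonneg ?_ (sum_nonneg fun _ _ => Complex.normSq_nonneg _))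
    rw [sub_nonneg, Complex.normSq_eq_norm_sq]
    exact pow_le_one₀ (norm_nonneg _) hz
  have e : (Q : ℝ) * (1 + ((Q : ℝ) - 1) * (cov Q z).re)
      = (Q : ℝ) + 2 * ∑ i ∈ range Q, ((Q : ℝ) - (i + 1)) * (z ^ (i + 1)).re := by
    obtain ⟨q, rfl⟩ : ∃ q, Q = q + 1 := ⟨Q - 1, by omega⟩
    rw [sum_range_succ]
    simp only [cov, Nat.add_sub_cancel, Complex.re_sum, Complex.re_ofReal_mul, cw, mul_add,
      mul_sum, mul_one]
    push_cast
    rw [show ((q : ℝ) + 1 - ((q : ℝ) + 1)) = 0 by ring, zero_mul, mul_zero, add_zero]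
    congr 1
    refine sum_congr rfl fun i _ => ?_
    have hq : (q : ℝ) ≠ 0 := by push_cast at hQ2; linarith
    rw [show ((q : ℝ) + 1 - 1) = q by ring]
    field_simp
  nlinarith

lemma fej_one {Q : ℕ} (hQ : 2 ≤ Q) : fej Q 1 = 1 := by
  have h : (2 : ℝ) ≤ Q := by exact_mod_cast hQ
  rw [fej, cov]
  simp only [one_pow, mul_one, Complex.re_sum, Complex.ofReal_re, cov_one hQ]
  field_simp
  ring

lemma norm_cov_le {Q : ℕ} (hQ : 2 ≤ Q) {z : ℂ} (hz : ‖z‖ ≤ 1) : ‖cov Q z‖ ≤ 1 := by
  refine (norm_sum_le _ _).trans ((sum_le_sum fun i hi => ?_).trans (cov_one hQ).le)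
  have : i + 1 ≤ Q := by have := mem_range.1 hi; omega
  rw [norm_mul, Complex.norm_real, Real.norm_eq_abs, abs_of_nonneg (cw_nonneg hQ this), norm_pow]
  exact mul_le_of_le_one_right (cw_nonneg hQ this) (pow_le_one₀ (norm_nonneg _) hz)

/-- The covariance is close to the nonnegative kernel. -/
lemma abs_cov_sub_fej {Q : ℕ} (hQ : 2 ≤ Q) {z : ℂ} (hz : ‖z‖ ≤ 1) :
    |(cov Q z).re - fej Q z| ≤ 2 / Q := by
  have hQ0 : (0 : ℝ) < Q := by exact_mod_cast (show 0 < Q by omega)
  rw [fej, show (cov Q z).re - (1 + ((Q : ℝ) - 1) * (cov Q z).re) / Q = ((cov Q z).re - 1) / Q by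
    field_simp; ring, abs_div, abs_of_pos hQ0]
  refine div_le_div_of_nonneg_right ?_ hQ0.le
  have h1 := (Complex.abs_re_le_norm _).trans (norm_cov_le hQ hz)
  rw [abs_le] at h1 ⊢
  constructor <;> linarith

section Kernel

variable {ι : Type*} [Fintype ι]

/-- Hermitian kernels with unit diagonal and nonnegative forms. -/
structure IsKer (k : ι → ι → ℂ) : Prop where
  herm : ∀ g h, conj (k g h) = k h g
  diag : ∀ g, k g g = 1
  psd : ∀ t : ι → ℂ, 0 ≤ (∑ g, ∑ h, conj (t g) * t h * k g h).re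

lemma IsKer.norm_le [DecidableEq ι] {k : ι → ι → ℂ} (hk : IsKer k) (g h : ι) : ‖k g h‖ ≤ 1 := by
  rcases eq_or_ne g h with rfl | hne
  · rw [hk.diag]; simp
  set c : ℂ := k h g with hc
  have h1 := hk.psd (Pi.single g 1 - c • Pi.single h 1)
  have e : ∑ a, ∑ b, conj ((Pi.single g 1 - c • Pi.single h 1 : ι → ℂ) a) *
      (Pi.single g 1 - c • Pi.single h 1 : ι → ℂ) b * k a b
      = 1 - c * k g h - conj c * k h g + conj c * c := by
    simp only [Pi.sub_apply, Pi.smul_apply, Pi.single_apply, map_sub, smul_eq_mul,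
      apply_ite (starRingEnd ℂ), map_one, map_zero, mul_ite, mul_one, mul_zero, sub_mul, mul_sub,
      ite_mul, one_mul, zero_mul, Finset.sum_sub_distrib, Finset.sum_ite_eq', Finset.mem_univ,
      if_true, hk.diag]
    ring
  rw [e] at h1
  have e2 : (1 - c * k g h - conj c * k h g + conj c * c).re = 1 - Complex.normSq (k g h) := by
    rw [hc, ← hk.herm g h, Complex.conj_conj]
    simp [Complex.mul_re, Complex.normSq_apply]
  rw [e2, Complex.normSq_eq_norm_sq] at h1
  nlinarith [norm_nonneg (k g h)]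

lemma IsKer.posSemidef {k : ι → ι → ℂ} (hk : IsKer k) : (Matrix.of k).PosSemidef := by
  classical
  rw [Matrix.posSemidef_iff_dotProduct_mulVec]
  refine ⟨Matrix.ext fun g h => hk.herm h g, fun t => ?_⟩
  have e : dotProduct (star t) (Matrix.mulVec (Matrix.of k) t)
      = ∑ g, ∑ h, conj (t g) * t h * k g h := by
    simp only [dotProduct, Matrix.mulVec, Matrix.of_apply, mul_sum, Pi.star_apply, Complex.star_def]
    exact sum_congr rfl fun g _ => sum_congr rfl fun h _ => by ring
  rw [e]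
  refine Complex.nonneg_iff.2 ⟨hk.psd t, ?_⟩
  have hc : conj (∑ g, ∑ h, conj (t g) * t h * k g h) = ∑ g, ∑ h, conj (t g) * t h * k g h := by
    simp only [map_sum, map_mul, Complex.conj_conj, hk.herm]
    rw [sum_comm]
    exact sum_congr rfl fun g _ => sum_congr rfl fun h _ => by ring
  exact (Complex.conj_eq_iff_im.1 hc).symm

lemma IsKer.pow_psd {k : ι → ι → ℂ} (hk : IsKer k) (t : ι → ℝ) (i : ℕ) :
    0 ≤ ∑ g, ∑ h, t g * t h * (k g h ^ (i + 1)).re := by
  have hP : (Matrix.of fun g h => k g h ^ (i + 1)).PosSemidef := by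
    induction i with
    | zero => simpa using hk.posSemidef
    | succ i ih =>
      have := ih.hadamard hk.posSemidef
      rw [show (Matrix.of fun g h => k g h ^ (i + 1 + 1))
        = Matrix.hadamard (Matrix.of fun g h => k g h ^ (i + 1)) (Matrix.of k) from
          Matrix.ext fun g h => pow_succ _ _]
      exact this
  have h := (Complex.nonneg_iff.1 (hP.dotProduct_mulVec_nonneg fun g => (t g : ℂ))).1
  simpa [dotProduct, Matrix.mulVec, mul_sum, Complex.re_sum, mul_assoc, mul_comm, mul_left_comm] using h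

/-- The Fejer kernel lies in the domain of the weights. -/
lemma IsKer.fej_mem_Dom [DecidableEq ι] {k : ι → ι → ℂ} (hk : IsKer k) {Q : ℕ} (hQ : 2 ≤ Q) :
    (fun g h => fej Q (k g h)) ∈ Dom ι := by
  refine ⟨fun g h => ?_, fun g h => fej_nonneg hQ (hk.norm_le g h), fun g => ?_, fun t => ?_⟩
  · show fej Q (k g h) = fej Q (k h g)
    simp only [fej, cov, ← hk.herm g h, Complex.re_sum, ← map_pow, Complex.re_ofReal_mul,
      Complex.conj_re]
  · show fej Q (k g g) = 1
    rw [hk.diag, fej_one hQ]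
  · have hQ1 : (2 : ℝ) ≤ Q := by exact_mod_cast hQ
    have e : ∑ g, ∑ h, t g * t h * fej Q (k g h) = ((∑ g, t g) * (∑ g, t g) + ((Q : ℝ) - 1) *
        ∑ i ∈ range (Q - 1), cw Q (i + 1) * ∑ g, ∑ h, t g * t h * (k g h ^ (i + 1)).re) / Q := by
      simp only [fej, cov, Complex.re_sum, Complex.re_ofReal_mul, mul_div_assoc', mul_add, mul_one,
        mul_sum, add_div, sum_div, sum_mul, sum_add_distrib]
      congr 1
      · rw [sum_comm]
      · rw [sum_comm (γ := ℕ)]
        refine sum_congr rfl fun g _ => ?_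
        rw [sum_comm (γ := ℕ)]
        exact sum_congr rfl fun h _ => sum_congr rfl fun i _ => by ring
    rw [e]
    refine div_nonneg (add_nonneg (mul_self_nonneg _) (mul_nonneg (by linarith) (sum_nonneg
      fun i hi => mul_nonneg (cw_nonneg hQ ?_) (hk.pow_psd t i)))) (by linarith)
    have := mem_range.1 hi
    omega

end Kernel

/-- Averages of products over the subsets of a given size. -/
def esym {m : ℕ} (k : Fin m → ℂ) (j : ℕ) : ℂ :=
  (∑ S ∈ (univ : Finset (Fin m)).powersetCard j, ∏ a ∈ S, k a) / (m.choose j : ℂ)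

lemma norm_esym_le {m : ℕ} {k : Fin m → ℂ} (hk : ∀ a, ‖k a‖ ≤ 1) {j : ℕ} (hj : j ≤ m) :
    ‖esym k j‖ ≤ 1 := by
  have hpos : (0 : ℝ) < m.choose j := by exact_mod_cast Nat.choose_pos hj
  rw [esym, norm_div, Complex.norm_natCast, div_le_one hpos]
  refine (norm_sum_le _ _).trans ((sum_le_sum (g := fun _ => (1 : ℝ)) fun S _ => ?_).trans_eq
    (by simp))
  rw [norm_prod]
  exact prod_le_one (fun a _ => norm_nonneg _) fun a _ => hk a

/-- The averages are close to the powers of the mean. -/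
lemma esym_approx {m : ℕ} (hm : 0 < m) {k : Fin m → ℂ} (hk : ∀ a, ‖k a‖ ≤ 1) :
    ∀ j ≤ m, ‖esym k j - ((∑ a, k a) / m) ^ j‖ ≤ 2 * (j : ℝ) ^ 2 / m := by
  have hm' : (0 : ℝ) < m := by exact_mod_cast hm
  set μ : ℂ := (∑ a, k a) / m with hμ
  have hμ1 : ‖μ‖ ≤ 1 := by
    rw [hμ, norm_div, Complex.norm_natCast, div_le_one hm']
    exact (norm_sum_le _ _).trans ((sum_le_sum fun a _ => hk a).trans_eq (by simp))
  intro j
  induction j with
  | zero => intro _; simp [esym, prod_empty]
  | succ j ih =>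
    intro hj
    set P : Finset (Fin m) → ℂ := fun S => ∏ a ∈ S, k a with hP
    set e : ℕ → ℂ := fun i => ∑ S ∈ (univ : Finset (Fin m)).powersetCard i, P S with he
    have hsplit : (∑ a, k a) * e j = ((j + 1 : ℕ) : ℂ) * e (j + 1)
        + ∑ S ∈ (univ : Finset (Fin m)).powersetCard j, ∑ a ∈ S, k a * P S := by
      have h1 : ((j + 1 : ℕ) : ℂ) * e (j + 1)
          = ∑ T ∈ (univ : Finset (Fin m)).powersetCard (j + 1), ∑ _a ∈ T, P T := by
        rw [he, mul_sum]
        exact sum_congr rfl fun T hT => by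
          rw [sum_const, (mem_powersetCard.1 hT).2, nsmul_eq_mul]
      have h2 : ∑ T ∈ (univ : Finset (Fin m)).powersetCard (j + 1), ∑ _a ∈ T, P T
          = ∑ S ∈ (univ : Finset (Fin m)).powersetCard j, ∑ a ∈ univ \ S, k a * P S := by
        rw [sum_sigma', sum_sigma']
        refine sum_bij' (fun x _ => ⟨x.1.erase x.2, x.2⟩) (fun y _ => ⟨insert y.2 y.1, y.2⟩)
          (fun x hx => ?_) (fun y hy => ?_) (fun x hx => ?_) (fun y hy => ?_) (fun x hx => ?_)
        all_goals simp only [mem_sigma, mem_powersetCard, subset_univ, true_and, mem_sdiff,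
          mem_univ] at *
        · exact ⟨by rw [card_erase_of_mem hx.2, hx.1]; rfl, notMem_erase _ _⟩
        · exact ⟨by rw [card_insert_of_notMem hy.2, hy.1], mem_insert_self _ _⟩
        · rw [insert_erase hx.2]
        · rw [erase_insert hy.2]
        · exact (mul_prod_erase _ _ hx.2).symm
      rw [h1, h2, he, mul_sum, ← sum_add_distrib]
      refine sum_congr rfl fun S _ => ?_
      rw [sum_mul, sum_sdiff (subset_univ S)]
    have hr : ‖∑ S ∈ (univ : Finset (Fin m)).powersetCard j, ∑ a ∈ S, k a * P S‖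
        ≤ (j : ℝ) * m.choose j := by
      refine (norm_sum_le _ _).trans ((sum_le_sum (g := fun _ => (j : ℝ)) fun S hS => ?_).trans_eq
        (by simp [mul_comm]))
      refine (norm_sum_le _ _).trans ((sum_le_sum (g := fun _ => (1 : ℝ)) fun a _ => ?_).trans_eq
        (by simp [(mem_powersetCard.1 hS).2]))
      rw [norm_mul, hP, norm_prod]
      exact mul_le_one₀ (hk a) (prod_nonneg fun _ _ => norm_nonneg _)
        (prod_le_one (fun b _ => norm_nonneg _) fun b _ => hk b)
    have hjm : j ≤ m := Nat.le_of_succ_le hj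
    have hc0 : (m.choose j : ℂ) ≠ 0 := by exact_mod_cast (Nat.choose_pos hjm).ne'
    have hc1 : (m.choose (j + 1) : ℂ) ≠ 0 := by exact_mod_cast (Nat.choose_pos hj).ne'
    have hch : ((j + 1 : ℕ) : ℂ) * (m.choose (j + 1) : ℂ) = ((m : ℂ) - j) * m.choose j := by
      have := Nat.choose_succ_right_eq m j
      rw [show ((m : ℂ) - j) = ((m - j : ℕ) : ℂ) by rw [Nat.cast_sub hjm]]
      rw [mul_comm, mul_comm _ (m.choose j : ℂ)]
      exact_mod_cast this
    have key : μ * esym k j = esym k (j + 1) - (j : ℂ) / m * esym k (j + 1)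
        + (∑ S ∈ (univ : Finset (Fin m)).powersetCard j, ∑ a ∈ S, k a * P S) /
          ((m : ℂ) * m.choose j) := by
      have hmc : (m : ℂ) ≠ 0 := by exact_mod_cast hm.ne'
      show (∑ a, k a) / (m : ℂ) * (e j / (m.choose j : ℂ)) = e (j + 1) / (m.choose (j + 1) : ℂ)
        - (j : ℂ) / m * (e (j + 1) / (m.choose (j + 1) : ℂ)) + _
      rw [div_mul_div_comm, hsplit]
      field_simp
      linear_combination e (j + 1) * hch
    have h1 : ‖esym k (j + 1) - μ * esym k j‖ ≤ 2 * j / m := by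
      rw [key, show esym k (j + 1) - (esym k (j + 1) - (j : ℂ) / m * esym k (j + 1)
        + (∑ S ∈ (univ : Finset (Fin m)).powersetCard j, ∑ a ∈ S, k a * P S) /
          ((m : ℂ) * m.choose j)) = (j : ℂ) / m * esym k (j + 1) -
        (∑ S ∈ (univ : Finset (Fin m)).powersetCard j, ∑ a ∈ S, k a * P S) /
          ((m : ℂ) * m.choose j) by ring, show 2 * (j : ℝ) / m = j / m + j / m by ring]
      refine (norm_sub_le _ _).trans (add_le_add ?_ ?_)
      · rw [norm_mul, norm_div, Complex.norm_natCast, Complex.norm_natCast]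
        exact mul_le_of_le_one_right (by positivity) (norm_esym_le hk hj)
      · rw [norm_div, norm_mul, Complex.norm_natCast, Complex.norm_natCast]
        have hpos : (0 : ℝ) < m.choose j := by exact_mod_cast Nat.choose_pos hjm
        rw [div_le_div_iff₀ (by positivity) hm']
        calc _ ≤ (j : ℝ) * m.choose j * m := mul_le_mul_of_nonneg_right hr hm'.le
          _ = _ := by ring
    calc ‖esym k (j + 1) - μ ^ (j + 1)‖
        = ‖(esym k (j + 1) - μ * esym k j) + μ * (esym k j - μ ^ j)‖ := by congr 1; ring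
      _ ≤ 2 * j / m + 1 * (2 * (j : ℝ) ^ 2 / m) := (norm_add_le _ _).trans (add_le_add h1
          ((norm_mul_le _ _).trans (mul_le_mul hμ1 (ih hjm) (norm_nonneg _) zero_le_one)))
      _ ≤ _ := by
          rw [one_mul, ← add_div]
          exact div_le_div_of_nonneg_right (by push_cast; nlinarith [(Nat.cast_nonneg j : (0:ℝ) ≤ j)])
            hm'.le

end Vale.Agent.P095.General.Core
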