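import Mathlib

/-! Positive functionals on a C*-algebra and norms in commutative subalgebras, for the chaos core. -/

noncomputable section

open scoped ComplexConjugate

namespace Vale.Agent.P095.General.Core

universe u

variable {M : Type u} [CStarAlgebra M]

/-- A positive functional. -/
def IsPos (Φ : M →ₗ[ℂ] ℂ) : Prop := ∀ x, ∃ r : ℝ, 0 ≤ r ∧ Φ (star x * x) = (r : ℂ)

variable {Φ : M →ₗ[ℂ] ℂ}

lemma IsPos.sa_bound (hΦ : IsPos Φ) {a : M} (ha : IsSelfAdjoint a) :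
    (Φ a).im = 0 ∧ (Φ a).re ≤ ‖a‖ * (Φ 1).re := by
  let := CStarAlgebra.spectralOrder M
  have := CStarAlgebra.spectralOrderedRing M
  obtain ⟨y, hy⟩ := (CStarAlgebra.nonneg_iff_eq_star_mul_self).1
    (sub_nonneg.2 ha.le_algebraMap_norm_self)
  obtain ⟨r, hr, hry⟩ := hΦ y
  obtain ⟨r1, -, hr1⟩ := hΦ 1
  rw [star_one, one_mul] at hr1
  rw [← hy, map_sub, Algebra.algebraMap_eq_smul_one, ← Complex.coe_smul, map_smul, smul_eq_mul,
    hr1] at hry
  have e : Φ a = ((‖a‖ * r1 - r : ℝ) : ℂ) := by push_cast; linear_combination -hry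
  rw [e, hr1, Complex.ofReal_re, Complex.ofReal_re, Complex.ofReal_im]
  exact ⟨rfl, by linarith⟩

lemma IsPos.map_star' (hΦ : IsPos Φ) (x : M) : Φ (star x) = conj (Φ x) := by
  have h : x = (realPart x : M) + Complex.I • (imaginaryPart x : M) :=
    (realPart_add_I_smul_imaginaryPart x).symm
  have h1 := (hΦ.sa_bound (realPart x).2).1
  have h2 := (hΦ.sa_bound (imaginaryPart x).2).1
  conv_lhs => rw [h]
  conv_rhs => rw [h]
  simp only [star_add, star_smul, (realPart x).2.star_eq, (imaginaryPart x).2.star_eq, map_add,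
    map_smul, smul_eq_mul, Complex.conj_eq_iff_im.2 h1, Complex.conj_eq_iff_im.2 h2, map_mul,
    Complex.star_def, Complex.conj_I]

/-- The norm bound. -/
lemma IsPos.norm_le (hΦ : IsPos Φ) (x : M) : ‖Φ x‖ ≤ ‖x‖ * (Φ 1).re := by
  obtain ⟨r1, hr1, hr1'⟩ := hΦ 1
  rw [star_one, one_mul] at hr1'
  rcases eq_or_ne (Φ x) 0 with h | h
  · rw [h, norm_zero, hr1', Complex.ofReal_re]; positivity
  set c : ℂ := conj (Φ x) / (‖Φ x‖ : ℂ) with hc
  have hcn : ‖c‖ = 1 := by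
    rw [hc, norm_div, Complex.norm_conj, Complex.norm_real, norm_norm, div_self]
    exact norm_ne_zero_iff.2 h
  have hcx : Φ (c • x) = (‖Φ x‖ : ℂ) := by
    rw [map_smul, smul_eq_mul, hc, div_mul_eq_mul_div, Complex.conj_mul', sq]
    field_simp
  have e : Φ (realPart (c • x) : M) = (‖Φ x‖ : ℂ) := by
    rw [realPart_apply_coe, ← Complex.coe_smul, map_smul, map_add, hΦ.map_star', hcx,
      Complex.conj_ofReal, smul_eq_mul]
    push_cast
    ring
  have h1 := (hΦ.sa_bound (realPart (c • x)).2).2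
  rw [e, Complex.ofReal_re] at h1
  refine h1.trans (mul_le_mul_of_nonneg_right ?_ (by rw [hr1', Complex.ofReal_re]; exact hr1))
  calc ‖(realPart (c • x) : M)‖ = ‖realPart (c • x)‖ := rfl
    _ ≤ ‖c • x‖ := realPart.norm_le (c • x)
    _ = ‖x‖ := by rw [norm_smul, hcn, one_mul]

lemma IsPos.norm_le_norm (hΦ : IsPos Φ) (h1 : Φ 1 = 1) (x : M) : ‖Φ x‖ ≤ ‖x‖ :=
  (hΦ.norm_le x).trans_eq (by rw [h1, Complex.one_re, mul_one])

/-- Compressions by one element. -/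
lemma IsPos.conj_le (hΦ : IsPos Φ) (y a : M) :
    ‖Φ (star y * a * y)‖ ≤ ‖a‖ * (Φ (star y * y)).re := by
  have hψ : IsPos (Φ ∘ₗ LinearMap.mulRight ℂ y ∘ₗ LinearMap.mulLeft ℂ (star y)) := fun x => by
    obtain ⟨r, hr, hr'⟩ := hΦ (x * y)
    exact ⟨r, hr, by rw [← hr']; simp [star_mul, mul_assoc]⟩
  simpa [mul_assoc] using hψ.norm_le a

/-- A closed commutative subalgebra containing given commuting self-adjoint elements. -/
lemma exists_comm_subalgebra {S : Set M} (hsa : ∀ x ∈ S, star x ∈ S)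
    (hc : ∀ x ∈ S, ∀ y ∈ S, Commute x y) :
    ∃ K : StarSubalgebra ℂ M, IsClosed (K : Set M) ∧ S ⊆ K ∧
      ∀ x ∈ K, ∀ y ∈ K, Commute x y := by
  refine ⟨(StarAlgebra.adjoin ℂ S).topologicalClosure,
    StarSubalgebra.isClosed_topologicalClosure _,
    fun x hx => StarSubalgebra.le_topologicalClosure _ (StarAlgebra.subset_adjoin ℂ S hx), ?_⟩
  set T := (StarAlgebra.adjoin ℂ S).topologicalClosure with hT
  have hmin : ∀ U : Set M, S ⊆ StarSubalgebra.centralizer ℂ U →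
      T ≤ StarSubalgebra.centralizer ℂ U := fun U h =>
    StarSubalgebra.topologicalClosure_minimal (StarAlgebra.adjoin_le h) (Set.isClosed_centralizer _)
  have h1 : T ≤ StarSubalgebra.centralizer ℂ S := hmin S fun x hx =>
    (StarSubalgebra.mem_centralizer_iff ℂ).2 fun g hg => ⟨hc g hg x hx, hc _ (hsa g hg) x hx⟩
  have h2 : T ≤ StarSubalgebra.centralizer ℂ (T : Set M) := hmin _ fun x hx =>
    (StarSubalgebra.mem_centralizer_iff ℂ).2 fun g hg =>
      ⟨((StarSubalgebra.mem_centralizer_iff ℂ).1 (h1 hg) x hx).1.symm,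
        ((StarSubalgebra.mem_centralizer_iff ℂ).1 (h1 (star_mem hg)) x hx).1.symm⟩
  exact fun x hx y hy => ((StarSubalgebra.mem_centralizer_iff ℂ).1 (h2 hy) x hx).1

/-- In a closed commutative subalgebra the norm is seen by characters. -/
lemma norm_le_of_char {K : StarSubalgebra ℂ M} (hK : IsClosed (K : Set M))
    (hc : ∀ x ∈ K, ∀ y ∈ K, Commute x y) {a : M} (ha : a ∈ K) {ε : ℝ} (hε : 0 ≤ ε)
    (h : ∀ χ : ↥K →⋆ₐ[ℂ] ℂ, ‖χ ⟨a, ha⟩‖ ≤ ε) : ‖a‖ ≤ ε := by
  have : IsClosed (K : Set M) := hK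
  let instC : CommCStarAlgebra K :=
    { (inferInstance : CStarAlgebra K) with
      mul_comm := fun x y => Subtype.ext (hc x x.2 y y.2).eq }
  show ‖(⟨a, ha⟩ : K)‖ ≤ ε
  rw [← (gelfandTransform_isometry K).norm_map_of_map_zero (map_zero _) ⟨a, ha⟩]
  refine (ContinuousMap.norm_le _ hε).2 fun χ => ?_
  exact h
    { WeakDual.CharacterSpace.toAlgHom χ with
      map_star' := fun x => map_star χ x }

/-- Characters commute with the functional calculus. -/
lemma char_cfc {K : StarSubalgebra ℂ M} (hK : IsClosed (K : Set M)) (χ : ↥K →⋆ₐ[ℂ] ℂ) {x : M}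
    (hx : x ∈ K) (hsa : IsSelfAdjoint x) {g : ℝ → ℝ} (hg : Continuous g) :
    ∃ r : ℝ, χ ⟨x, hx⟩ = (r : ℂ) ∧ ∀ h : cfc g x ∈ K, χ ⟨cfc g x, h⟩ = ((g r : ℝ) : ℂ) := by
  have : IsClosed (K : Set M) := hK
  have hsaK : IsSelfAdjoint (⟨x, hx⟩ : K) := Subtype.ext hsa.star_eq
  have hsaC : IsSelfAdjoint (χ ⟨x, hx⟩) := hsaK.map χ
  obtain ⟨r, hr⟩ : ∃ r : ℝ, χ ⟨x, hx⟩ = (r : ℂ) :=
    ⟨(χ ⟨x, hx⟩).re, (Complex.conj_eq_iff_re.1 hsaC.star_eq).symm⟩
  refine ⟨r, hr, fun h => ?_⟩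
  have hχ : Continuous χ := (AddMonoidHomClass.continuous_of_bound χ 1 fun y => by
    rw [one_mul]; exact NonUnitalStarAlgHom.norm_apply_le χ y)
  have e1 : (⟨cfc g x, h⟩ : K) = cfc g (⟨x, hx⟩ : K) := Subtype.ext
    (StarAlgHomClass.map_cfc (S := ℂ) K.subtype g (⟨x, hx⟩ : K) hg.continuousOn
      continuous_subtype_val hsaK hsa).symm
  rw [e1, StarAlgHomClass.map_cfc χ g ⟨x, hx⟩ hg.continuousOn hχ hsaK hsaC, hr,
    show ((r : ℂ)) = algebraMap ℝ ℂ r from rfl, cfc_algebraMap]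
  rfl

/-- The functional calculus stays in a closed subalgebra. -/
lemma cfc_mem {K : StarSubalgebra ℂ M} (hK : IsClosed (K : Set M)) {x : M} (hx : x ∈ K)
    (hsa : IsSelfAdjoint x) {g : ℝ → ℝ} (hg : Continuous g) : cfc g x ∈ K := by
  have : IsClosed (K : Set M) := hK
  have hsaK : IsSelfAdjoint (⟨x, hx⟩ : K) := Subtype.ext hsa.star_eq
  rw [show cfc g x = K.subtype (cfc g (⟨x, hx⟩ : K)) from
    (StarAlgHomClass.map_cfc (S := ℂ) K.subtype g (⟨x, hx⟩ : K) hg.continuousOn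
      continuous_subtype_val hsaK hsa).symm]
  exact SetLike.coe_mem _

end Vale.Agent.P095.General.Core
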