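import Vale.Agent.P095.General.Defs
import Vale.Agent.P095.General.Core.Fejer
import Vale.Agent.P095.General.Core.State

/-! The chaos of one layer of Gaussian data: orthogonality and covariance. -/

noncomputable section

open Finset

namespace Vale.Agent.P095.General.Core

universe u v

variable {M : Type u} [CStarAlgebra M] {ι : Type v} [Fintype ι] {L m : ℕ} {τ C : ℝ}
  (d : Gauss M ι (Fin L × Fin m) τ C) (l : Fin L)

/-- The product of one variable over a list of groups. -/
def fprod (g : ι) (S : List (Fin m)) : M := (S.map fun a => d.f (l, a) g).prod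

/-- The product of the approximate kernel over a list of groups. -/
def kprod' (g h : ι) (S : List (Fin m)) : M := (S.map fun a => d.K' (l, a) g h).prod

/-- The product of the kernel over a list of groups. -/
def kprod (g h : ι) (S : List (Fin m)) : M := (S.map fun a => d.K (l, a) g h).prod

/-- The normalisation of one degree. -/
def scoef (Q m i : ℕ) : ℝ := Real.sqrt (cw Q (i + 1) / (m.choose (i + 1) : ℝ))

/-- The chaos variable. -/
def Z (Q : ℕ) (g : ι) : M :=
  ∑ i ∈ range (Q - 1), (scoef Q m i : ℂ) •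
    ∑ S ∈ (univ : Finset (Fin m)).powersetCard (i + 1), fprod d l g S.toList

/-- The covariance with the approximate kernel. -/
def covK' (Q : ℕ) (g h : ι) : M :=
  ∑ i ∈ range (Q - 1), ((scoef Q m i * scoef Q m i : ℝ) : ℂ) •
    ∑ S ∈ (univ : Finset (Fin m)).powersetCard (i + 1), kprod' d l g h S.toList

/-- The covariance with the kernel. -/
def covK (Q : ℕ) (g h : ι) : M :=
  ∑ i ∈ range (Q - 1), ((scoef Q m i * scoef Q m i : ℝ) : ℂ) •
    ∑ S ∈ (univ : Finset (Fin m)).powersetCard (i + 1), kprod d l g h S.toList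

lemma commute_fprod {x : M} {g : ι} {S : List (Fin m)}
    (h : ∀ a ∈ S, Commute x (d.f (l, a) g)) : Commute x (fprod d l g S) :=
  Commute.list_prod_right _ _ fun y hy => by
    obtain ⟨a, ha, rfl⟩ := List.mem_map.1 hy
    exact h a ha

lemma fprod_mem {K : StarSubalgebra ℂ M} {g : ι} {S : List (Fin m)}
    (h : ∀ a ∈ S, d.f (l, a) g ∈ K) : fprod d l g S ∈ K :=
  list_prod_mem fun y hy => by
    obtain ⟨a, ha, rfl⟩ := List.mem_map.1 hy
    exact h a ha

lemma fprod_pairwise (g : ι) {S : List (Fin m)} (hS : S.Nodup) :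
    (S.map fun a => d.f (l, a) g).Pairwise Commute :=
  List.pairwise_map.2 (hS.imp fun {a b} hab =>
    d.comm_ff (l, a) (l, b) (fun e => hab (Prod.mk.inj e).2) g g)

lemma fprod_perm (g : ι) {S T : List (Fin m)} (hS : S.Nodup) (h : S.Perm T) :
    fprod d l g S = fprod d l g T :=
  (h.map _).prod_eq' (fprod_pairwise d l g hS)

lemma star_fprod (g : ι) {S : List (Fin m)} (hS : S.Nodup) :
    star (fprod d l g S) = fprod d l g S := by
  induction S with
  | nil => simp [fprod]
  | cons a S ih =>
    obtain ⟨ha, hS'⟩ := List.nodup_cons.1 hS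
    show star (d.f (l, a) g * fprod d l g S) = _
    rw [star_mul, ih hS', (d.f_sa (l, a) g).star_eq]
    exact ((commute_fprod d l fun b hb => d.comm_ff (l, a) (l, b)
      (fun e => ha ((Prod.mk.inj e).2 ▸ hb)) g g).eq).symm

lemma star_Z (Q : ℕ) (g : ι) : star (Z d l Q g) = Z d l Q g := by
  simp only [Z, star_sum, star_smul, Complex.star_def, Complex.conj_ofReal,
    star_fprod d l g (Finset.nodup_toList _)]

/-- Orthogonality of the monomials. -/
lemma pair_lists (g h : ι) : ∀ (S T : List (Fin m)), S.Nodup → T.Nodup → ∀ R : M,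
    (∀ b, R ∈ d.out (l, b)) →
    d.Φ (R * (fprod d l g S * fprod d l h T))
      = if S.toFinset = T.toFinset then d.Φ (R * kprod' d l g h S) else 0 := by
  intro S
  induction S with
  | nil =>
    intro T _ hT R hR
    rcases T with - | ⟨b, T⟩
    · simp [fprod, kprod']
    · obtain ⟨hb, -⟩ := List.nodup_cons.1 hT
      have hTm : fprod d l h T ∈ d.out (l, b) := fprod_mem d l fun a ha =>
        d.out_f (l, b) (l, a) (fun e => hb ((Prod.mk.inj e).2 ▸ ha)) h
      have e : fprod d l g [] * fprod d l h (b :: T) = fprod d l h T * d.f (l, b) h := by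
        simp only [fprod, List.map_nil, List.prod_nil, one_mul, List.map_cons, List.prod_cons]
        exact (d.out_comm (l, b) _ hTm h).symm.eq
      rw [e, ← mul_assoc, d.mean (l, b) h _ (mul_mem (hR b) hTm), if_neg]
      intro e0
      have : b ∈ (([] : List (Fin m)).toFinset) := by rw [e0]; simp
      simp at this
  | cons a S ih =>
    intro T hS hT R hR
    obtain ⟨ha, hS'⟩ := List.nodup_cons.1 hS
    have hSm : fprod d l g S ∈ d.out (l, a) := fprod_mem d l fun c hc =>
      d.out_f (l, a) (l, c) (fun e => ha ((Prod.mk.inj e).2 ▸ hc)) g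
    by_cases haT : a ∈ T
    · set T' := T.erase a with hT'
      have hp : T.Perm (a :: T') := List.perm_cons_erase haT
      have hT'n : T'.Nodup := hT.erase a
      have haT' : a ∉ T' := hT.not_mem_erase
      have hTm : fprod d l h T' ∈ d.out (l, a) := fprod_mem d l fun c hc =>
        d.out_f (l, a) (l, c) (fun e => haT' ((Prod.mk.inj e).2 ▸ hc)) h
      have hST : fprod d l g S * fprod d l h T' ∈ d.out (l, a) := mul_mem hSm hTm
      have hKc : Commute (d.K' (l, a) g h) (fprod d l g S * fprod d l h T') :=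
        Commute.mul_right (commute_fprod d l fun c _ => (d.comm_Kf _ _ _ _ _).2)
          (commute_fprod d l fun c _ => (d.comm_Kf _ _ _ _ _).2)
      have e : fprod d l g (a :: S) * fprod d l h T
          = fprod d l g S * fprod d l h T' * (d.f (l, a) g * d.f (l, a) h) := by
        rw [fprod_perm d l h hT hp]
        show d.f (l, a) g * fprod d l g S * (d.f (l, a) h * fprod d l h T') = _
        rw [← (d.out_comm (l, a) _ hSm g).eq, ← (d.out_comm (l, a) _ hTm h).eq,
          (d.out_comm (l, a) _ hTm g).symm.mul_mul_mul_comm]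
      have hsets : ((a :: S).toFinset = T.toFinset) ↔ S.toFinset = T'.toFinset := by
        rw [List.toFinset_eq_of_perm _ _ hp, List.toFinset_cons, List.toFinset_cons]
        refine ⟨fun h0 => ?_, fun h0 => by rw [h0]⟩
        have := congrArg (Finset.erase · a) h0
        simpa [Finset.erase_insert, List.mem_toFinset, ha, haT'] using this
      rw [e, ← mul_assoc, d.pair (l, a) g h _ (mul_mem (hR a) hST), mul_assoc R, ← hKc.eq,
        ← mul_assoc R, ih T' hS' hT'n _ fun b => mul_mem (hR b) (d.out_K (l, b) (l, a) g h).2]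
      by_cases hst : S.toFinset = T'.toFinset
      · rw [if_pos hst, if_pos (hsets.2 hst), mul_assoc]
        simp [kprod']
      · rw [if_neg hst, if_neg fun h0 => hst (hsets.1 h0)]
    · have hTm : fprod d l h T ∈ d.out (l, a) := fprod_mem d l fun c hc =>
        d.out_f (l, a) (l, c) (fun e => haT ((Prod.mk.inj e).2 ▸ hc)) h
      have e : fprod d l g (a :: S) * fprod d l h T
          = fprod d l g S * fprod d l h T * d.f (l, a) g := by
        show d.f (l, a) g * fprod d l g S * fprod d l h T = _
        rw [← (d.out_comm (l, a) _ hSm g).eq, mul_assoc, ← (d.out_comm (l, a) _ hTm g).eq, mul_assoc]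
      rw [e, ← mul_assoc, d.mean (l, a) g _ (mul_mem (hR a) (mul_mem hSm hTm)), if_neg]
      intro e0
      exact haT (List.mem_toFinset.1 (e0 ▸ List.mem_toFinset.2 List.mem_cons_self))

/-- The chaos has mean zero. -/
lemma mean_Z (Q : ℕ) (g : ι) (R : M) (hR : ∀ b, R ∈ d.out (l, b)) :
    d.Φ (R * Z d l Q g) = 0 := by
  simp only [Z, mul_sum, mul_smul_comm, map_sum, map_smul]
  refine sum_eq_zero fun i _ => ?_
  refine smul_eq_zero_of_right _ (sum_eq_zero fun S hS => ?_)
  have h := pair_lists d l g g S.toList [] (Finset.nodup_toList S) List.nodup_nil R hR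
  rw [show fprod d l g ([] : List (Fin m)) = 1 from rfl, mul_one, if_neg] at h
  · exact h
  · intro e0
    rw [Finset.toList_toFinset, List.toFinset_nil] at e0
    simp [e0] at hS

/-- The covariance of the chaos. -/
lemma pair_Z (Q : ℕ) (g h : ι) (R : M) (hR : ∀ b, R ∈ d.out (l, b)) :
    d.Φ (R * (Z d l Q g * Z d l Q h)) = d.Φ (R * covK' d l Q g h) := by
  classical
  simp only [Z, covK', sum_mul, mul_sum, smul_mul_assoc, mul_smul_comm, map_sum, map_smul,
    smul_eq_mul]
  refine sum_congr rfl fun i hi => ?_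
  refine sum_congr rfl fun T hT => ?_
  rw [sum_eq_single (M := ℂ) i]
  · rw [sum_eq_single (M := ℂ) T]
    · rw [pair_lists d l g h _ _ (Finset.nodup_toList _) (Finset.nodup_toList _) R hR, if_pos rfl]
      push_cast
      ring
    · intro S _ hne
      rw [pair_lists d l g h _ _ (Finset.nodup_toList _) (Finset.nodup_toList _) R hR, if_neg
        (by rw [Finset.toList_toFinset, Finset.toList_toFinset]; exact hne)]
      simp
    · exact fun h0 => absurd hT h0
  · intro i' _ hii'
    refine sum_eq_zero fun S hS => ?_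
    rw [pair_lists d l g h _ _ (Finset.nodup_toList _) (Finset.nodup_toList _) R hR, if_neg]
    · simp
    · intro e0
      rw [Finset.toList_toFinset, Finset.toList_toFinset] at e0
      have h1 := (mem_powersetCard.1 hS).2
      have h2 := (mem_powersetCard.1 hT).2
      subst e0
      omega
  · exact fun h0 => absurd hi h0

lemma norm_K'_le (hτ : τ ≤ 1) (a : Fin m) (g h : ι) : ‖d.K' (l, a) g h‖ ≤ 3 := by
  have h1 := norm_le_norm_add_norm_sub' (d.K' (l, a) g h) (d.K (l, a) g h)
  linarith [d.K_norm (l, a) g h, d.K_near (l, a) g h]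

/-- Products of the two kernels are close. -/
lemma kprod_near [Nontrivial M] (hτ : τ ≤ 1) (g h : ι) :
    ∀ S : List (Fin m), ‖kprod' d l g h S‖ ≤ 3 ^ S.length ∧
      ‖kprod' d l g h S - kprod d l g h S‖ ≤ S.length * (τ * 3 ^ S.length) := by
  intro S
  induction S with
  | nil => simp [kprod', kprod]
  | cons a S ih =>
    have hτ0 : 0 ≤ τ := (norm_nonneg _).trans (d.K_near (l, a) g h)
    have hK' := norm_K'_le d l hτ a g h
    have e' : kprod' d l g h (a :: S) = d.K' (l, a) g h * kprod' d l g h S := by simp [kprod']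
    have e : kprod d l g h (a :: S) = d.K (l, a) g h * kprod d l g h S := by simp [kprod]
    rw [e', e]
    refine ⟨(norm_mul_le _ _).trans ((mul_le_mul hK' ih.1 (norm_nonneg _) (by norm_num)).trans_eq
      (by rw [List.length_cons, pow_succ'])), ?_⟩
    rw [show d.K' (l, a) g h * kprod' d l g h S - d.K (l, a) g h * kprod d l g h S
      = (d.K' (l, a) g h - d.K (l, a) g h) * kprod' d l g h S
        + d.K (l, a) g h * (kprod' d l g h S - kprod d l g h S) by noncomm_ring]
    refine (norm_add_le _ _).trans ((add_le_add ((norm_mul_le _ _).trans (mul_le_mul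
      (d.K_near _ _ _) ih.1 (norm_nonneg _) hτ0)) ((norm_mul_le _ _).trans (mul_le_mul
      (d.K_norm _ _ _) ih.2 (norm_nonneg _) zero_le_two))).trans ?_)
    rw [List.length_cons, pow_succ']
    push_cast
    have : 0 ≤ τ * 3 ^ S.length := by positivity
    nlinarith [(Nat.cast_nonneg S.length : (0 : ℝ) ≤ S.length)]

lemma scoef_sq {Q i : ℕ} (hQ : 2 ≤ Q) (hi : i ∈ range (Q - 1)) :
    scoef Q m i * scoef Q m i = cw Q (i + 1) / (m.choose (i + 1) : ℝ) := by
  refine Real.mul_self_sqrt (div_nonneg (cw_nonneg hQ ?_) (Nat.cast_nonneg _))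
  have := mem_range.1 hi
  omega

/-- The two covariances are close. -/
lemma covK_near [Nontrivial M] {Q : ℕ} (hQ : 2 ≤ Q) (hQm : Q ≤ m) (hτ : τ ≤ 1) (hτ0 : 0 ≤ τ)
    (g h : ι) : ‖covK' d l Q g h - covK d l Q g h‖ ≤ Q * (τ * 3 ^ Q) := by
  rw [covK', covK, ← sum_sub_distrib]
  refine (norm_sum_le _ _).trans ((sum_le_sum (g := fun i => cw Q (i + 1) * (Q * (τ * 3 ^ Q)))
    fun i hi => ?_).trans_eq (by rw [← sum_mul, cov_one hQ, one_mul]))
  rw [← smul_sub, norm_smul, Complex.norm_real, Real.norm_eq_abs, abs_mul_self,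
    scoef_sq hQ hi, ← sum_sub_distrib]
  have hiQ : i + 1 ≤ Q := by have := mem_range.1 hi; omega
  have hch : (0 : ℝ) < m.choose (i + 1) := by exact_mod_cast Nat.choose_pos (hiQ.trans hQm)
  refine (mul_le_mul_of_nonneg_left ((norm_sum_le _ _).trans (sum_le_sum
    (g := fun _ => (Q : ℝ) * (τ * 3 ^ Q)) fun S hS => ?_))
    (div_nonneg (cw_nonneg hQ hiQ) hch.le)).trans_eq ?_
  · refine (kprod_near d l hτ g h S.toList).2.trans ?_
    rw [Finset.length_toList, (mem_powersetCard.1 hS).2]
    gcongr
    norm_num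
  · rw [sum_const, card_powersetCard, card_univ, Fintype.card_fin, nsmul_eq_mul]
    field_simp

/-- The covariance under a character of the kernels. -/
lemma char_covK {K : StarSubalgebra ℂ M} (hK : ∀ a g h, d.K (l, a) g h ∈ K) (χ : ↥K →⋆ₐ[ℂ] ℂ)
    {Q : ℕ} (hQ : 2 ≤ Q) (g h : ι) :
    ∃ hmem : covK d l Q g h ∈ K, χ ⟨_, hmem⟩ =
      ∑ i ∈ range (Q - 1), (cw Q (i + 1) : ℂ) *
        esym (fun a => χ ⟨d.K (l, a) g h, hK a g h⟩) (i + 1) := by
  let kk : Fin m → K := fun a => ⟨d.K (l, a) g h, hK a g h⟩
  have e : covK d l Q g h = ((∑ i ∈ range (Q - 1), ((scoef Q m i * scoef Q m i : ℝ) : ℂ) •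
      ∑ S ∈ (univ : Finset (Fin m)).powersetCard (i + 1), (S.toList.map kk).prod : K) : M) := by
    simp only [covK, kprod, AddSubmonoidClass.coe_finsetSum, SetLike.val_smul, SubmonoidClass.coe_list_prod,
      List.map_map, Function.comp_def, kk]
  refine ⟨e ▸ SetLike.coe_mem _, ?_⟩
  rw [show (⟨covK d l Q g h, e ▸ SetLike.coe_mem _⟩ : K) = ∑ i ∈ range (Q - 1),
    ((scoef Q m i * scoef Q m i : ℝ) : ℂ) •
      ∑ S ∈ (univ : Finset (Fin m)).powersetCard (i + 1), (S.toList.map kk).prod from Subtype.ext e]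
  simp only [map_sum, map_smul, map_list_prod, List.map_map, Function.comp_def, smul_eq_mul,
    Finset.prod_map_toList]
  refine sum_congr rfl fun i hi => ?_
  rw [scoef_sq hQ hi, esym, Complex.ofReal_div, Complex.ofReal_natCast]
  simp only [kk]
  ring

end Vale.Agent.P095.General.Core
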