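import Vale.Agent.P095.General.Core.Chaos
import Vale.Agent.P095.Poly

/-! The commutative algebra of the kernels and the second moments of combinations of the chaos. -/

noncomputable section

open Finset
open scoped ComplexConjugate

namespace Vale.Agent.P095.General.Core

universe u v

variable {M : Type u} [CStarAlgebra M] {ι : Type v} [Fintype ι] {L m : ℕ} {τ C : ℝ}
  (d : Gauss M ι (Fin L × Fin m) τ C)

/-- All kernel entries. -/
def kset : Set M := Set.range fun x : (Fin L × Fin m) × ι × ι => d.K x.1 x.2.1 x.2.2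

/-- The algebra of the kernels. -/
def kalg : StarSubalgebra ℂ M := (StarAlgebra.adjoin ℂ (kset d)).topologicalClosure

/-- The generators outside one layer. -/
def gens (l : Fin L) : Set M :=
  (d.base : Set M) ∪ kset d ∪ {x | ∃ a g, a.1 ≠ l ∧ d.f a g = x}

/-- The algebra outside one layer. -/
def outer (l : Fin L) : StarSubalgebra ℂ M :=
  (StarAlgebra.adjoin ℂ (gens d l)).topologicalClosure

lemma isClosed_kalg : IsClosed (kalg d : Set M) := StarSubalgebra.isClosed_topologicalClosure _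

lemma isClosed_outer (l : Fin L) : IsClosed (outer d l : Set M) :=
  StarSubalgebra.isClosed_topologicalClosure _

lemma K_mem_kalg (a : Fin L × Fin m) (g h : ι) : d.K a g h ∈ kalg d :=
  StarSubalgebra.le_topologicalClosure _ (StarAlgebra.subset_adjoin ℂ _ ⟨(a, g, h), rfl⟩)

lemma mem_outer {l : Fin L} {x : M} (hx : x ∈ gens d l) : x ∈ outer d l :=
  StarSubalgebra.le_topologicalClosure _ (StarAlgebra.subset_adjoin ℂ _ hx)

lemma base_le_outer (l : Fin L) : d.base ≤ outer d l :=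
  fun _ hx => mem_outer d (Or.inl (Or.inl hx))

lemma kalg_le_outer (l : Fin L) : kalg d ≤ outer d l :=
  StarSubalgebra.topologicalClosure_minimal
    (StarAlgebra.adjoin_le fun _ hx => mem_outer d (Or.inl (Or.inr hx))) (isClosed_outer d l)

lemma star_mem_kset {x : M} (hx : x ∈ kset d) : star x ∈ kset d := by
  obtain ⟨⟨a, g, h⟩, rfl⟩ := hx
  exact ⟨(a, h, g), (d.K_star a g h).symm⟩

lemma kalg_comm {x y : M} (hx : x ∈ kalg d) (hy : y ∈ kalg d) : Commute x y := by
  obtain ⟨K, hK, hS, hc⟩ := exists_comm_subalgebra (S := kset d) (fun _ => star_mem_kset d) (by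
    rintro _ ⟨⟨a, g, g'⟩, rfl⟩ _ ⟨⟨b, h, h'⟩, rfl⟩
    exact (d.comm_KK a b g g' h h').1)
  have hle : kalg d ≤ K :=
    StarSubalgebra.topologicalClosure_minimal (StarAlgebra.adjoin_le hS) hK
  exact hc x (hle hx) y (hle hy)

lemma outer_le_out (l : Fin L) (b : Fin m) : outer d l ≤ d.out (l, b) := by
  refine StarSubalgebra.topologicalClosure_minimal (StarAlgebra.adjoin_le ?_) (d.out_closed _)
  rintro x ((hx | ⟨⟨a, g, h⟩, rfl⟩) | ⟨a, g, ha, rfl⟩)
  · exact d.out_base _ hx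
  · exact (d.out_K _ a g h).1
  · exact d.out_f _ a (fun e => ha (e ▸ rfl)) g

lemma kalg_le_out (l : Fin L) (b : Fin m) : kalg d ≤ d.out (l, b) :=
  (kalg_le_outer d l).trans (outer_le_out d l b)

/-- The elements commuting with everything in one layer. -/
lemma commute_layer {l : Fin L} {y : M} (hy : y ∈ outer d l) (a : Fin m) (g h : ι) :
    Commute y (d.f (l, a) g) ∧ Commute y (d.K' (l, a) g h) := by
  have key : outer d l ≤ StarSubalgebra.centralizer ℂ
      ({d.f (l, a) g, d.K' (l, a) g h} : Set M) := by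
    refine StarSubalgebra.topologicalClosure_minimal (StarAlgebra.adjoin_le ?_)
      (Set.isClosed_centralizer _)
    have h0 : ∀ x ∈ gens d l, Commute x (d.f (l, a) g) ∧ Commute x (d.K' (l, a) g h) := by
      rintro x ((hx | ⟨⟨b, p, q⟩, rfl⟩) | ⟨b, p, hb, rfl⟩)
      · exact ⟨(d.base_comm x hx (l, a) g h).1, (d.base_comm x hx (l, a) g h).2.2⟩
      · exact ⟨(d.comm_Kf b (l, a) p q g).1, (d.comm_KK (l, a) b g h p q).2.1.symm⟩
      · exact ⟨d.comm_ff b (l, a) (fun e => hb (e ▸ rfl)) p g,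
          (d.comm_Kf (l, a) b g h p).2.symm⟩
    have hst : ∀ x ∈ gens d l, star x ∈ gens d l := by
      rintro x ((hx | hx) | ⟨b, p, hb, rfl⟩)
      · exact Or.inl (Or.inl (star_mem hx))
      · exact Or.inl (Or.inr (star_mem_kset d hx))
      · exact Or.inr ⟨b, p, hb, (d.f_sa b p).star_eq.symm⟩
    intro x hx
    refine (StarSubalgebra.mem_centralizer_iff ℂ).2 ?_
    intro u hu
    have h1 : Commute x u ∧ Commute (star x) u := by
      rcases hu with rfl | rfl
      · exact ⟨(h0 x hx).1, (h0 _ (hst x hx)).1⟩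
      · exact ⟨(h0 x hx).2, (h0 _ (hst x hx)).2⟩
    refine ⟨h1.1.symm.eq, ?_⟩
    have h2 := h1.2.star_star
    rw [star_star] at h2
    exact h2.symm.eq
  have h1 := (StarSubalgebra.mem_centralizer_iff ℂ).1 (key hy)
  exact ⟨((h1 _ (Or.inl rfl)).1 : _ = _).symm, ((h1 _ (Or.inr rfl)).1 : _ = _).symm⟩

lemma commute_Z {l : Fin L} {y : M} (hy : y ∈ outer d l) (Q : ℕ) (g : ι) :
    Commute y (Z d l Q g) :=
  Commute.sum_right _ _ _ fun _ _ => (Commute.sum_right _ _ _ fun _ _ =>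
    commute_fprod d l fun a _ => (commute_layer d hy a g g).1).smul_right _

lemma commute_covK' {l : Fin L} {y : M} (hy : y ∈ outer d l) (Q : ℕ) (g h : ι) :
    Commute y (covK' d l Q g h) :=
  Commute.sum_right _ _ _ fun _ _ => (Commute.sum_right _ _ _ fun _ _ =>
    Commute.list_prod_right _ _ fun x hx => by
      obtain ⟨a, -, rfl⟩ := List.mem_map.1 hx
      exact (commute_layer d hy a g h).2).smul_right _

lemma covK_mem (l : Fin L) (Q : ℕ) (g h : ι) : covK d l Q g h ∈ kalg d :=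
  sum_mem fun _ _ => (kalg d).smul_mem (sum_mem fun _ _ => list_prod_mem fun x hx => by
    obtain ⟨a, -, rfl⟩ := List.mem_map.1 hx
    exact K_mem_kalg d _ g h) _

/-- The chaos of other layers lies in the outer algebra. -/
lemma Z_mem {l i : Fin L} (h : i ≠ l) (Q : ℕ) (g : ι) : Z d i Q g ∈ outer d l :=
  sum_mem fun _ _ => (outer d l).smul_mem (sum_mem fun _ _ => fprod_mem d i fun a _ =>
    mem_outer d (Or.inr ⟨(i, a), g, h, rfl⟩)) _

/-- The mean kernel of one layer. -/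
def kbarM (l : Fin L) (g h : ι) : M := (m : ℂ)⁻¹ • ∑ a, d.K (l, a) g h

lemma kbarM_mem (l : Fin L) (g h : ι) : kbarM d l g h ∈ kalg d :=
  (kalg d).smul_mem (sum_mem fun _ _ => K_mem_kalg d _ g h) _

/-- The kernels seen by a character. -/
def chiK (χ : ↥(kalg d) →⋆ₐ[ℂ] ℂ) (a : Fin L × Fin m) (g h : ι) : ℂ :=
  χ ⟨d.K a g h, K_mem_kalg d a g h⟩

/-- The mean kernel seen by a character. -/
def chiBar (χ : ↥(kalg d) →⋆ₐ[ℂ] ℂ) (l : Fin L) (g h : ι) : ℂ :=
  (∑ a, chiK d χ (l, a) g h) / (m : ℂ)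

lemma chi_kbarM (χ : ↥(kalg d) →⋆ₐ[ℂ] ℂ) (l : Fin L) (g h : ι) :
    χ ⟨kbarM d l g h, kbarM_mem d l g h⟩ = chiBar d χ l g h := by
  rw [show (⟨kbarM d l g h, kbarM_mem d l g h⟩ : ↥(kalg d)) =
    (m : ℂ)⁻¹ • ∑ a, (⟨d.K (l, a) g h, K_mem_kalg d (l, a) g h⟩ : ↥(kalg d)) from Subtype.ext (by
      simp [kbarM])]
  rw [map_smul, map_sum, chiBar, smul_eq_mul, div_eq_inv_mul]
  rfl

lemma isKer_chiK (χ : ↥(kalg d) →⋆ₐ[ℂ] ℂ) (a : Fin L × Fin m) : IsKer (chiK d χ a) := by
  refine ⟨fun g h => ?_, fun g => ?_, fun t => ?_⟩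
  · show conj (χ _) = χ _
    rw [← Complex.star_def, ← map_star]
    congr 1
    exact Subtype.ext (d.K_star a g h)
  · show χ _ = 1
    rw [← map_one χ]
    congr 1
    exact Subtype.ext (d.K_diag a g)
  · obtain ⟨B, hB⟩ := d.K_psd a t
    let x : ↥(kalg d) := ∑ g, ∑ h, (conj (t g) * t h) • ⟨d.K a g h, K_mem_kalg d a g h⟩
    have hx : (x : M) = star B * B := by rw [hB]; simp [x]
    have hχ : χ x = ∑ g, ∑ h, conj (t g) * t h * chiK d χ a g h := by
      simp only [x, map_sum, map_smul, smul_eq_mul, chiK]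
    rw [← hχ]
    have : IsClosed (kalg d : Set M) := isClosed_kalg d
    have hmem : χ x ∈ spectrum ℂ (x : M) := by
      rw [← StarSubalgebra.spectrum_eq]
      exact AlgHom.apply_mem_spectrum χ.toAlgHom x
    let := CStarAlgebra.spectralOrder M
    have := CStarAlgebra.spectralOrderedRing M
    rw [hx] at hmem
    open scoped ComplexOrder in
    exact (Complex.nonneg_iff.1 (spectrum_nonneg_of_nonneg (star_mul_self_nonneg B) hmem)).1

lemma isKer_chiBar (χ : ↥(kalg d) →⋆ₐ[ℂ] ℂ) (l : Fin L) (hm : 0 < m) : IsKer (chiBar d χ l) := by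
  have hm' : (m : ℂ) ≠ 0 := by exact_mod_cast hm.ne'
  refine ⟨fun g h => ?_, fun g => ?_, fun t => ?_⟩
  · simp only [chiBar, map_div₀, map_sum, (isKer_chiK d χ _).herm, Complex.conj_natCast]
  · simp [chiBar, (isKer_chiK d χ _).diag, hm']
  · have e : ∑ g, ∑ h, conj (t g) * t h * chiBar d χ l g h
        = (∑ a, ∑ g, ∑ h, conj (t g) * t h * chiK d χ (l, a) g h) / (m : ℂ) := by
      simp only [chiBar, mul_div_assoc', mul_sum, ← sum_div]
      congr 1
      symm
      rw [sum_comm]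
      exact sum_congr rfl fun g _ => sum_comm
    rw [e, Complex.div_natCast_re, Complex.re_sum]
    exact div_nonneg (sum_nonneg fun a _ => (isKer_chiK d χ (l, a)).psd t) (Nat.cast_nonneg m)

section Gen

variable {σ : Type v} [Fintype σ] (l : Fin L) (Q : ℕ) (u : σ → M) (γ : σ → ι)

/-- A combination of the chaos of one layer. -/
def gen : M := ∑ s, u s * Z d l Q (γ s)

/-- Its variance with the kernel. -/
def vark : M := ∑ s, ∑ t, u s * u t * covK d l Q (γ s) (γ t)

/-- Its variance with the approximate kernel. -/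
def vark' : M := ∑ s, ∑ t, u s * u t * covK' d l Q (γ s) (γ t)

variable {u γ} (hu : ∀ s, u s ∈ kalg d)

include hu

lemma mean_gen {R : M} (hR : R ∈ outer d l) : d.Φ (R * gen d l Q u γ) = 0 := by
  rw [gen, mul_sum, map_sum]
  refine sum_eq_zero fun s _ => ?_
  rw [← mul_assoc]
  exact mean_Z d l Q _ _ fun b => mul_mem (outer_le_out d l b hR) (kalg_le_out d l b (hu s))

lemma sq_gen {R : M} (hR : R ∈ outer d l) :
    d.Φ (R * (gen d l Q u γ * gen d l Q u γ)) = d.Φ (R * vark' d l Q u γ) := by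
  rw [gen, sum_mul_sum, vark']
  simp only [mul_sum, map_sum]
  refine sum_congr rfl fun s _ => sum_congr rfl fun t _ => ?_
  rw [(commute_Z d (kalg_le_outer d l (hu t)) Q (γ s)).symm.mul_mul_mul_comm, ← mul_assoc R,
    ← mul_assoc R (u s * u t)]
  exact pair_Z d l Q _ _ _ fun b => mul_mem (outer_le_out d l b hR)
    (mul_mem (kalg_le_out d l b (hu s)) (kalg_le_out d l b (hu t)))

lemma gen_mem {i : Fin L} (h : l ≠ i) : gen d l Q u γ ∈ outer d i :=
  sum_mem fun s _ => mul_mem (kalg_le_outer d i (hu s)) (Z_mem d h Q _)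

omit hu in
lemma commute_gen (hc : ∀ s, ∀ y ∈ outer d l, Commute y (u s)) {y : M} (hy : y ∈ outer d l) :
    Commute y (gen d l Q u γ) :=
  Commute.sum_right _ _ _ fun s _ => (hc s y hy).mul_right (commute_Z d hy Q _)

omit hu in
lemma commute_vark' (hc : ∀ s, ∀ y ∈ outer d l, Commute y (u s)) {y : M} (hy : y ∈ outer d l) :
    Commute y (vark' d l Q u γ) :=
  Commute.sum_right _ _ _ fun s _ => Commute.sum_right _ _ _ fun t _ =>
    ((hc s y hy).mul_right (hc t y hy)).mul_right (commute_covK' d hy Q _ _)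

lemma gen_sa (hsa : ∀ s, IsSelfAdjoint (u s)) : IsSelfAdjoint (gen d l Q u γ) := by
  refine isSelfAdjoint_sum _ fun s _ => ?_
  rw [isSelfAdjoint_iff, star_mul, star_Z, (hsa s).star_eq]
  exact (commute_Z d (kalg_le_outer d l (hu s)) Q _).symm.eq

end Gen

/-- Everything in the outer algebra commutes with the algebra of the kernels. -/
lemma commute_kalg {l : Fin L} {y x : M} (hy : y ∈ outer d l) (hx : x ∈ kalg d) : Commute y x := by
  have key : outer d l ≤ StarSubalgebra.centralizer ℂ (kset d) := by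
    refine StarSubalgebra.topologicalClosure_minimal (StarAlgebra.adjoin_le ?_)
      (Set.isClosed_centralizer _)
    have h0 : ∀ z ∈ gens d l, ∀ k ∈ kset d, Commute z k := by
      rintro z ((hz | ⟨⟨b, p, q⟩, rfl⟩) | ⟨b, p, hb, rfl⟩) _ ⟨⟨a, g, h⟩, rfl⟩
      · exact (d.base_comm z hz a g h).2.1
      · exact (d.comm_KK b a p q g h).1
      · exact (d.comm_Kf a b g h p).1.symm
    intro z hz
    refine (StarSubalgebra.mem_centralizer_iff ℂ).2 fun k hk => ?_
    exact ⟨(h0 z hz k hk).symm.eq, (h0 z hz _ (star_mem_kset d hk)).symm.eq⟩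
  have key2 : kalg d ≤ StarSubalgebra.centralizer ℂ ({y} : Set M) := by
    refine StarSubalgebra.topologicalClosure_minimal (StarAlgebra.adjoin_le ?_)
      (Set.isClosed_centralizer _)
    intro k hk
    refine (StarSubalgebra.mem_centralizer_iff ℂ).2 ?_
    rintro g rfl
    exact ⟨((StarSubalgebra.mem_centralizer_iff ℂ).1 (key hy) k hk).1.symm,
      ((StarSubalgebra.mem_centralizer_iff ℂ).1 (key (star_mem hy)) k hk).1.symm⟩
  exact ((StarSubalgebra.mem_centralizer_iff ℂ).1 (key2 hx) y rfl).1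

/-- The variance is seen by characters as a form in the nonnegative kernel. -/
lemma vark_bound {σ : Type v} [Fintype σ] [DecidableEq ι] (l : Fin L) {Q : ℕ} (hQ : 2 ≤ Q)
    (hQm : Q ≤ m) {u : σ → M} (γ : σ → ι) (hu : ∀ s, u s ∈ kalg d)
    (hsa : ∀ s, IsSelfAdjoint (u s)) (W : ℝ) (hW : 0 ≤ W)
    (hWu : ∀ χ : ↥(kalg d) →⋆ₐ[ℂ] ℂ, ∑ s, ‖χ ⟨u s, hu s⟩‖ ≤ W) (c : ℂ) {e : ℝ}
    (he : 0 ≤ e)
    (h : ∀ χ : ↥(kalg d) →⋆ₐ[ℂ] ℂ, ‖((∑ s, ∑ t, (χ ⟨u s, hu s⟩).re * (χ ⟨u t, hu t⟩).re *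
      fej Q (chiBar d χ l (γ s) (γ t)) : ℝ) : ℂ) - c‖ ≤ e) :
    ‖vark d l Q u γ - c • (1 : M)‖ ≤ e + W * W * (2 * (Q : ℝ) ^ 2 / m + 2 / Q) := by
  have hmem : vark d l Q u γ ∈ kalg d := sum_mem fun s _ => sum_mem fun t _ =>
    mul_mem (mul_mem (hu s) (hu t)) (covK_mem d l Q _ _)
  refine norm_le_of_char (isClosed_kalg d) (fun x hx y hy => kalg_comm d hx hy)
    (sub_mem hmem ((kalg d).smul_mem (one_mem _) c)) (by positivity) fun χ => ?_
  have hk := isKer_chiBar d χ l (by omega)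
  set a : σ → ℝ := fun s => (χ ⟨u s, hu s⟩).re with ha
  have hreal : ∀ s, χ ⟨u s, hu s⟩ = (a s : ℂ) := fun s => by
    have h1 : IsSelfAdjoint (⟨u s, hu s⟩ : ↥(kalg d)) := Subtype.ext (hsa s).star_eq
    exact (Complex.conj_eq_iff_re.1 (h1.map χ).star_eq).symm
  set cv : σ → σ → ℂ := fun s t => χ ⟨covK d l Q (γ s) (γ t), covK_mem d l Q _ _⟩ with hcv
  have hval : χ ⟨vark d l Q u γ - c • 1, sub_mem hmem ((kalg d).smul_mem (one_mem _) c)⟩
      = (∑ s, ∑ t, ((a s * a t : ℝ) : ℂ) * cv s t) - c := by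
    rw [show (⟨vark d l Q u γ - c • 1, sub_mem hmem ((kalg d).smul_mem (one_mem _) c)⟩ : ↥(kalg d))
      = (∑ s, ∑ t, ⟨u s, hu s⟩ * ⟨u t, hu t⟩ * ⟨covK d l Q (γ s) (γ t), covK_mem d l Q _ _⟩) - c • 1
      from Subtype.ext (by simp [vark])]
    simp only [map_sub, map_sum, map_mul, map_smul, map_one, smul_eq_mul, mul_one, hreal, hcv]
    push_cast
    rfl
  have hherm : ∀ s t, conj (cv s t) = cv t s := fun s t => by
    rw [hcv, ← Complex.star_def, ← map_star]
    congr 1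
    refine Subtype.ext ?_
    show star (covK d l Q (γ s) (γ t)) = covK d l Q (γ t) (γ s)
    simp only [covK, star_sum, star_smul, Complex.star_def, Complex.conj_ofReal]
    refine sum_congr rfl fun i _ => ?_
    congr 1
    refine sum_congr rfl fun S _ => ?_
    simp only [kprod]
    induction S.toList with
    | nil => simp
    | cons b S ih =>
      simp only [List.map_cons, List.prod_cons, star_mul, ih, d.K_star]
      exact (kalg_comm d (list_prod_mem fun x hx => by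
        obtain ⟨a', -, rfl⟩ := List.mem_map.1 hx
        exact K_mem_kalg d _ _ _) (K_mem_kalg d _ _ _)).eq
  have himzero : (∑ s, ∑ t, ((a s * a t : ℝ) : ℂ) * cv s t)
      = ((∑ s, ∑ t, a s * a t * (cv s t).re : ℝ) : ℂ) := by
    have hconj : conj (∑ s, ∑ t, ((a s * a t : ℝ) : ℂ) * cv s t)
        = ∑ s, ∑ t, ((a s * a t : ℝ) : ℂ) * cv s t := by
      simp only [map_sum, map_mul, Complex.conj_ofReal, hherm]
      rw [sum_comm]
      exact sum_congr rfl fun s _ => sum_congr rfl fun t _ => by rw [mul_comm (a t)]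
    refine ((Complex.conj_eq_iff_re.1 hconj).symm).trans ?_
    simp only [Complex.re_sum, Complex.re_ofReal_mul]
  have hnear : ∀ s t, |(cv s t).re - fej Q (chiBar d χ l (γ s) (γ t))|
      ≤ 2 * (Q : ℝ) ^ 2 / m + 2 / Q := fun s t => by
    obtain ⟨hmem', hc⟩ := char_covK d l (fun a g h => K_mem_kalg d (l, a) g h) χ hQ (γ s) (γ t)
    have hknorm : ∀ a, ‖chiK d χ (l, a) (γ s) (γ t)‖ ≤ 1 := fun a =>
      (isKer_chiK d χ (l, a)).norm_le _ _
    have h1 : ‖cv s t - cov Q (chiBar d χ l (γ s) (γ t))‖ ≤ 2 * (Q : ℝ) ^ 2 / m := by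
      rw [hcv]
      simp only [hc, cov, ← sum_sub_distrib, ← mul_sub]
      refine (norm_sum_le _ _).trans ((sum_le_sum (g := fun i => cw Q (i + 1) * (2 * (Q : ℝ) ^ 2 / m))
        fun i hi => ?_).trans_eq (by rw [← sum_mul, cov_one hQ, one_mul]))
      have hiQ : i + 1 ≤ Q := by have := mem_range.1 hi; omega
      rw [norm_mul, Complex.norm_real, Real.norm_eq_abs, abs_of_nonneg (cw_nonneg hQ hiQ)]
      refine mul_le_mul_of_nonneg_left ((esym_approx (by omega) hknorm (i + 1) (by omega)).trans ?_)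
        (cw_nonneg hQ hiQ)
      gcongr
    have h2 := (Complex.abs_re_le_norm _).trans h1
    rw [Complex.sub_re] at h2
    exact (abs_sub_le _ (cov Q (chiBar d χ l (γ s) (γ t))).re _).trans
      (add_le_add h2 (abs_cov_sub_fej hQ (hk.norm_le _ _)))
  rw [hval, himzero]
  refine (norm_sub_le_norm_sub_add_norm_sub _
    ((∑ s, ∑ t, a s * a t * fej Q (chiBar d χ l (γ s) (γ t)) : ℝ) : ℂ) _).trans ?_
  rw [add_comm e]
  refine add_le_add ?_ (h χ)
  rw [← Complex.ofReal_sub, Complex.norm_real, Real.norm_eq_abs]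
  simp only [← sum_sub_distrib, ← mul_sub]
  have hA : ∑ s, |a s| ≤ W := by
    refine le_of_eq_of_le (sum_congr rfl fun s _ => ?_) (hWu χ)
    rw [hreal, Complex.norm_real, Real.norm_eq_abs]
  calc |∑ s, ∑ t, a s * a t * ((cv s t).re - fej Q (chiBar d χ l (γ s) (γ t)))|
      ≤ ∑ s, ∑ t, |a s| * |a t| * (2 * (Q : ℝ) ^ 2 / m + 2 / Q) :=
        (abs_sum_le_sum_abs _ _).trans (sum_le_sum fun s _ =>
          (abs_sum_le_sum_abs _ _).trans (sum_le_sum fun t _ => by
            rw [abs_mul, abs_mul]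
            exact mul_le_mul_of_nonneg_left (hnear s t) (by positivity)))
    _ = (∑ s, |a s|) * (∑ s, |a s|) * (2 * (Q : ℝ) ^ 2 / m + 2 / Q) := by
        rw [sum_mul_sum, sum_mul]
        exact sum_congr rfl fun s _ => (sum_mul _ _ _).symm
    _ ≤ _ := by gcongr

/-- The two variances are close. -/
lemma vark'_near [Nontrivial M] {σ : Type v} [Fintype σ] (l : Fin L) {Q : ℕ} (hQ : 2 ≤ Q)
    (hQm : Q ≤ m) (hτ : τ ≤ 1) (hτ0 : 0 ≤ τ) (u : σ → M) (γ : σ → ι) {W : ℝ}
    (hWu : ∑ s, ‖u s‖ ≤ W) :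
    ‖vark' d l Q u γ - vark d l Q u γ‖ ≤ W * W * (Q * (τ * 3 ^ Q)) := by
  rw [vark', vark, ← sum_sub_distrib]
  simp only [← sum_sub_distrib, ← mul_sub]
  have h0 : 0 ≤ ∑ s, ‖u s‖ := sum_nonneg fun s _ => norm_nonneg _
  calc _ ≤ ∑ s, ∑ t, ‖u s‖ * ‖u t‖ * (Q * (τ * 3 ^ Q)) :=
        (norm_sum_le _ _).trans (sum_le_sum fun s _ => (norm_sum_le _ _).trans
          (sum_le_sum fun t _ => (norm_mul_le _ _).trans (mul_le_mul (norm_mul_le _ _)
            (covK_near d l hQ hQm hτ hτ0 _ _) (norm_nonneg _) (by positivity))))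
    _ = (∑ s, ‖u s‖) * (∑ s, ‖u s‖) * (Q * (τ * 3 ^ Q)) := by
        rw [sum_mul_sum, sum_mul]
        exact sum_congr rfl fun s _ => (sum_mul _ _ _).symm
    _ ≤ _ := mul_le_mul_of_nonneg_right (mul_le_mul hWu hWu h0 (h0.trans hWu)) (by positivity)

/-- A bound for the chaos variables, depending on the numbers only. -/
def zBound (Q m : ℕ) (C : ℝ) : ℝ :=
  ∑ i ∈ range (Q - 1), |scoef Q m i| * ((m.choose (i + 1) : ℝ) * |C| ^ (i + 1))

lemma norm_Z_le [Nontrivial M] (l : Fin L) (Q : ℕ) (g : ι) : ‖Z d l Q g‖ ≤ zBound Q m C := by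
  refine (norm_sum_le _ _).trans (sum_le_sum fun i _ => ?_)
  rw [norm_smul, Complex.norm_real, Real.norm_eq_abs]
  refine mul_le_mul_of_nonneg_left ((norm_sum_le _ _).trans ((sum_le_sum
    (g := fun _ => |C| ^ (i + 1)) fun S hS => ?_).trans_eq (by simp))) (abs_nonneg _)
  refine (List.norm_prod_le _).trans ?_
  rw [List.map_map, Finset.prod_map_toList]
  calc ∏ a ∈ S, ‖d.f (l, a) g‖ ≤ ∏ _a ∈ S, |C| :=
        prod_le_prod (fun a _ => norm_nonneg _) fun a _ => (d.f_norm _ _).trans (le_abs_self C)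
    _ = _ := by rw [prod_const, (mem_powersetCard.1 hS).2]

end Vale.Agent.P095.General.Core
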