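import Vale.Agent.P095.General.Core.Walk
import Vale.Agent.P095.General.Core.State

/-! The Lindeberg comparison for commuting almost independent layers. -/

noncomputable section

open Finset

namespace Vale.Agent.P095.General.Core

universe u

variable {M : Type u} [CStarAlgebra M]

/-- Commuting layers, each with zero mean given the others and almost unit variance. -/
structure Chain (Φ : M →ₗ[ℂ] ℂ) (base : StarSubalgebra ℂ M) (L : ℕ) (B ε : ℝ) where
  X : Fin L → M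
  O : Fin L → StarSubalgebra ℂ M
  sa : ∀ l, IsSelfAdjoint (X l)
  norm_le : ∀ l, ‖X l‖ ≤ B
  closed : ∀ l, IsClosed (O l : Set M)
  base_le : ∀ l, base ≤ O l
  other : ∀ l i, i ≠ l → X i ∈ O l
  comm : ∀ l, ∀ y ∈ O l, Commute y (X l)
  mean : ∀ l, ∀ R ∈ O l, Φ (R * X l) = 0
  var : ∀ l, ∀ R ∈ O l, ‖Φ (R * (X l * X l)) - Φ R‖ ≤ ε * ‖R‖
  var_pos : ∀ l, ∀ Y ∈ O l,
    (Φ (star Y * (X l * X l) * Y)).re ≤ (1 + ε) * (Φ (star Y * Y)).re

/-- Scaled partial sums. -/
def psum {L : ℕ} (X : Fin L → M) (n : ℕ) : M :=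
  (1 / Real.sqrt L : ℝ) • ∑ i ∈ univ.filter (fun i : Fin L => i.1 < n), X i

lemma psum_succ {L : ℕ} (X : Fin L → M) (l : Fin L) :
    psum X (l + 1) = psum X l + (1 / Real.sqrt L : ℝ) • X l := by
  have e : univ.filter (fun i : Fin L => i.1 < l + 1) =
      insert l (univ.filter fun i : Fin L => i.1 < l) := by
    ext i; simp [Fin.ext_iff]; omega
  rw [psum, psum, e, sum_insert (by simp), add_comm (X l), smul_add]

lemma psum_full {L : ℕ} (X : Fin L → M) : psum X L = (1 / Real.sqrt L : ℝ) • ∑ i, X i := by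
  rw [psum, filter_true_of_mem fun i _ => i.2]

lemma psum_zero {L : ℕ} (X : Fin L → M) : psum X 0 = 0 := by simp [psum]

lemma psum_sa {L : ℕ} {X : Fin L → M} (h : ∀ l, IsSelfAdjoint (X l)) (n : ℕ) :
    IsSelfAdjoint (psum X n) :=
  IsSelfAdjoint.smul (IsSelfAdjoint.all _) (isSelfAdjoint_sum _ fun i _ => h i)

lemma real_smul_mem {K : StarSubalgebra ℂ M} {x : M} (hx : x ∈ K) (r : ℝ) : r • x ∈ K := by
  rw [← Complex.coe_smul]; exact K.smul_mem hx _

lemma psum_mem {L : ℕ} {X : Fin L → M} {K : StarSubalgebra ℂ M} {n : ℕ}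
    (h : ∀ i : Fin L, i.1 < n → X i ∈ K) : psum X n ∈ K :=
  real_smul_mem (sum_mem fun i hi => h i (mem_filter.1 hi).2) _

lemma map_real_smul (Φ : M →ₗ[ℂ] ℂ) (r : ℝ) (x : M) : Φ (r • x) = (r : ℂ) * Φ x := by
  rw [← Complex.coe_smul, map_smul, smul_eq_mul]

lemma one_div_sqrt_sq {L : ℕ} :
    (1 / Real.sqrt L : ℝ) * (1 / Real.sqrt L) = 1 / L := by
  rw [div_mul_div_comm, one_mul, Real.mul_self_sqrt (Nat.cast_nonneg L)]

/-- Both Taylor estimates as operator inequalities. -/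
lemma taylor_op {g g1 g2 : ℝ → ℝ} {Bg : ℝ} (s : Smooth3 g g1 g2 Bg) {w x : M}
    (hw : IsSelfAdjoint w) (hx : IsSelfAdjoint x) (hc : Commute w x) (h : ℝ) :
    ‖cfc g (w + x) - cfc g w - cfc g1 w * x - (2⁻¹ : ℝ) • (cfc g2 w * (x * x))‖ ≤ Bg * ‖x‖ ^ 3 ∧
      ‖cfc (stepAvg h g) w - cfc g w - (h * h / 2) • cfc g2 w‖ ≤ Bg * |h| ^ 3 := by
  obtain ⟨K, hK, hS, hKc⟩ := exists_comm_subalgebra (M := M) (S := {w, x})
    (fun y hy => by rcases hy with rfl | rfl <;> simp [hw.star_eq, hx.star_eq])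
    (fun y hy z hz => by
      rcases hy with rfl | rfl <;> rcases hz with rfl | rfl
      exacts [Commute.refl _, hc, hc.symm, Commute.refl _])
  have hwK : w ∈ K := hS (Or.inl rfl)
  have hxK : x ∈ K := hS (Or.inr rfl)
  obtain ⟨cg, cg1, cg2⟩ := s.continuous
  have hB := s.nonneg
  constructor
  · have hwx : w + x ∈ K := add_mem hwK hxK
    have m0 := cfc_mem hK hwx (hw.add hx) cg
    have m1 := cfc_mem hK hwK hw cg
    have m2 := cfc_mem hK hwK hw cg1
    have m3 := cfc_mem hK hwK hw cg2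
    refine norm_le_of_char hK hKc (sub_mem (sub_mem (sub_mem m0 m1) (mul_mem m2 hxK))
      (real_smul_mem (mul_mem m3 (mul_mem hxK hxK)) _)) (mul_nonneg hB (by positivity)) fun χ => ?_
    obtain ⟨r, hr, hrg⟩ := char_cfc hK χ hwK hw cg
    obtain ⟨r1, hr1, hrg1⟩ := char_cfc hK χ hwK hw cg1
    obtain ⟨r2, hr2, hrg2⟩ := char_cfc hK χ hwK hw cg2
    obtain ⟨q, hq, hqg⟩ := char_cfc hK χ hwx (hw.add hx) cg
    obtain ⟨y, hy, -⟩ := char_cfc hK χ hxK hx cg
    have er1 : r1 = r := Complex.ofReal_injective (hr1.symm.trans hr)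
    have er2 : r2 = r := Complex.ofReal_injective (hr2.symm.trans hr)
    have eq : q = r + y := Complex.ofReal_injective (by
      rw [← hq, Complex.ofReal_add, ← hr, ← hy, ← map_add]; rfl)
    have hyn : |y| ≤ ‖x‖ := by
      rw [← Real.norm_eq_abs, ← Complex.norm_real, ← hy]
      exact NonUnitalStarAlgHom.norm_apply_le χ _
    have e : χ ⟨_, sub_mem (sub_mem (sub_mem m0 m1) (mul_mem m2 hxK))
        (real_smul_mem (mul_mem m3 (mul_mem hxK hxK)) (2⁻¹ : ℝ))⟩
        = ((g (r + y) - g r - g1 r * y - g2 r * (y * y / 2) : ℝ) : ℂ) := by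
      rw [show (⟨_, sub_mem (sub_mem (sub_mem m0 m1) (mul_mem m2 hxK))
        (real_smul_mem (mul_mem m3 (mul_mem hxK hxK)) (2⁻¹ : ℝ))⟩ : K) = (⟨_, m0⟩ : K) - ⟨_, m1⟩
          - ⟨_, m2⟩ * ⟨_, hxK⟩ - (((2⁻¹ : ℝ) : ℂ)) • ((⟨_, m3⟩ : K) * (⟨_, hxK⟩ * ⟨_, hxK⟩)) from
        Subtype.ext (by simp [← Complex.coe_smul])]
      simp only [map_sub, map_mul, map_smul, smul_eq_mul, hqg, hrg, hrg1, hrg2, hy, er1, er2, eq]
      push_cast
      ring
    rw [e, Complex.norm_real, Real.norm_eq_abs]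
    exact (s.taylor r y).trans (mul_le_mul_of_nonneg_left
      (pow_le_pow_left₀ (abs_nonneg _) hyn 3) hB)
  · have cT : Continuous (stepAvg h g) := (s.step h).continuous.1
    have m0 := cfc_mem hK hwK hw cT
    have m1 := cfc_mem hK hwK hw cg
    have m3 := cfc_mem hK hwK hw cg2
    refine norm_le_of_char hK hKc (sub_mem (sub_mem m0 m1) (real_smul_mem m3 _))
      (mul_nonneg hB (by positivity)) fun χ => ?_
    obtain ⟨r, hr, hrg⟩ := char_cfc hK χ hwK hw cg
    obtain ⟨r0, hr0, hrg0⟩ := char_cfc hK χ hwK hw cT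
    obtain ⟨r2, hr2, hrg2⟩ := char_cfc hK χ hwK hw cg2
    have er0 : r0 = r := Complex.ofReal_injective (hr0.symm.trans hr)
    have er2 : r2 = r := Complex.ofReal_injective (hr2.symm.trans hr)
    rw [show (⟨_, sub_mem (sub_mem m0 m1) (real_smul_mem m3 (h * h / 2))⟩ : K)
      = (⟨_, m0⟩ : K) - ⟨_, m1⟩ - ((h * h / 2 : ℝ) : ℂ) • (⟨_, m3⟩ : K) from
        Subtype.ext (by simp [← Complex.coe_smul])]
    simp only [map_sub, map_smul, smul_eq_mul, hrg, hrg0, hrg2, er0, er2, ← Complex.ofReal_mul,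
      ← Complex.ofReal_sub, Complex.norm_real, Real.norm_eq_abs, stepAvg]
    have h1 := s.taylor r h
    have h2 := s.taylor r (-h)
    rw [abs_neg] at h2
    rw [← sub_eq_add_neg] at h2
    have e : (g (r + h) + g (r - h)) / 2 - g r - h * h / 2 * g2 r
        = ((g (r + h) - g r - g1 r * h - g2 r * (h * h / 2))
          + (g (r - h) - g r - g1 r * -h - g2 r * (-h * -h / 2))) / 2 := by ring
    rw [e]
    exact abs_half_le h1 h2

namespace Chain

variable {Φ : M →ₗ[ℂ] ℂ} {base : StarSubalgebra ℂ M} {L : ℕ} {B ε : ℝ}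
  (c : Chain Φ base L B ε)

include c

lemma psum_mem_O {l : Fin L} {n : ℕ} (h : n ≤ l) : psum c.X n ∈ c.O l :=
  psum_mem fun i hi => c.other l i fun e => by
    have := congrArg Fin.val e
    omega

lemma commute_psum (l : Fin L) : Commute (psum c.X l) ((1 / Real.sqrt L : ℝ) • c.X l) :=
  (c.comm l _ (c.psum_mem_O le_rfl)).smul_right _

/-- Orthogonality of the linear terms. -/
lemma map_mul_psum {F : M} (hFb : F ∈ base) :
    Φ (F * psum c.X L) = 0 := by
  rw [psum_full, mul_smul_comm, map_real_smul, mul_sum, map_sum,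
    Finset.sum_eq_zero fun i _ => c.mean i F (c.base_le i hFb), mul_zero]

/-- One step of the comparison. -/
lemma step_bound (hΦ : IsPos Φ) (h1 : Φ 1 = 1) (hB : 0 ≤ B) {g g1 g2 : ℝ → ℝ} {Bg : ℝ}
    (s : Smooth3 g g1 g2 Bg) {F : M} (hFb : F ∈ base) (l : Fin L) :
    ‖Φ (F * cfc g (psum c.X (l + 1))) - Φ (F * cfc (stepAvg (1 / Real.sqrt L) g) (psum c.X l))‖
      ≤ ‖F‖ * Bg * ((1 / Real.sqrt L) ^ 3 * (B ^ 3 + 1) + ε / (2 * L)) := by
  set h : ℝ := 1 / Real.sqrt L with hh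
  have hh0 : 0 ≤ h := by positivity
  set w := psum c.X l with hw
  set x := h • c.X l with hx
  have hxs : IsSelfAdjoint x := IsSelfAdjoint.smul (IsSelfAdjoint.all _) (c.sa l)
  have hws : IsSelfAdjoint w := psum_sa c.sa _
  obtain ⟨t1, t2⟩ := taylor_op s hws hxs (c.commute_psum l) h
  obtain ⟨cg, cg1, cg2⟩ := s.continuous
  have hwO : w ∈ c.O l := c.psum_mem_O le_rfl
  have hFO : F ∈ c.O l := c.base_le l hFb
  have hR1 : F * cfc g1 w ∈ c.O l := mul_mem hFO (cfc_mem (c.closed l) hwO hws cg1)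
  have hR2 : F * cfc g2 w ∈ c.O l := mul_mem hFO (cfc_mem (c.closed l) hwO hws cg2)
  rw [psum_succ]
  change ‖Φ (F * cfc g (w + x)) - Φ (F * cfc (stepAvg h g) w)‖ ≤ _
  set E1 := cfc g (w + x) - cfc g w - cfc g1 w * x - (2⁻¹ : ℝ) • (cfc g2 w * (x * x)) with hE1
  set E2 := cfc (stepAvg h g) w - cfc g w - (h * h / 2) • cfc g2 w with hE2
  have e : Φ (F * cfc g (w + x)) - Φ (F * cfc (stepAvg h g) w) = Φ (F * E1) - Φ (F * E2)
      + ((h * h / 2 : ℝ) : ℂ) * (Φ (F * cfc g2 w * (c.X l * c.X l)) - Φ (F * cfc g2 w)) := by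
    have m1 : Φ (F * (cfc g1 w * c.X l)) = 0 := by rw [← mul_assoc, c.mean l _ hR1]
    simp only [hE1, hE2, mul_sub, map_sub, hx, mul_smul_comm, smul_mul_assoc, smul_smul,
      map_real_smul, mul_assoc, m1]
    push_cast
    ring
  rw [e]
  have hn : ∀ E : M, ‖Φ (F * E)‖ ≤ ‖F‖ * ‖E‖ := fun E =>
    (hΦ.norm_le_norm h1 _).trans (norm_mul_le _ _)
  have hB' := s.nonneg
  have hxn : ‖x‖ ≤ h * B := by
    rw [hx, norm_smul, Real.norm_eq_abs, abs_of_nonneg hh0]
    exact mul_le_mul_of_nonneg_left (c.norm_le l) hh0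
  have a1 : ‖Φ (F * E1)‖ ≤ ‖F‖ * (Bg * (h * B) ^ 3) :=
    (hn _).trans (mul_le_mul_of_nonneg_left (t1.trans (mul_le_mul_of_nonneg_left
      (pow_le_pow_left₀ (norm_nonneg _) hxn 3) hB')) (norm_nonneg _))
  have a2 : ‖Φ (F * E2)‖ ≤ ‖F‖ * (Bg * h ^ 3) :=
    (hn _).trans (mul_le_mul_of_nonneg_left (t2.trans_eq (by rw [abs_of_nonneg hh0])) (norm_nonneg _))
  have hg2 : ‖F * cfc g2 w‖ ≤ ‖F‖ * Bg := (norm_mul_le _ _).trans (mul_le_mul_of_nonneg_left
    (norm_cfc_le hB' fun t _ => by rw [Real.norm_eq_abs]; exact s.b2 t) (norm_nonneg _))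
  have hεF : 0 ≤ ε * ‖F * cfc g2 w‖ := (norm_nonneg _).trans (c.var l _ hR2)
  have a3 : ‖((h * h / 2 : ℝ) : ℂ) *
      (Φ (F * cfc g2 w * (c.X l * c.X l)) - Φ (F * cfc g2 w))‖ ≤ ‖F‖ * Bg * (ε / (2 * L)) := by
    rw [norm_mul, Complex.norm_real, Real.norm_eq_abs, abs_of_nonneg (by positivity)]
    refine (mul_le_mul_of_nonneg_left (c.var l _ hR2) (by positivity)).trans ?_
    rcases (norm_nonneg (F * cfc g2 w)).eq_or_lt with h0 | h0
    · rw [← h0, mul_zero, mul_zero]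
      rcases (mul_nonneg (norm_nonneg F) hB').eq_or_lt with h00 | h00
      · rw [← h00, zero_mul]
      · have hε0 : 0 ≤ ε := by
          have h5 := c.var l 1 (one_mem _)
          have : Nontrivial M := ⟨⟨1, 0, fun e => by rw [e, map_zero] at h1; exact zero_ne_one h1⟩⟩
          rw [norm_one, mul_one] at h5
          exact (norm_nonneg _).trans h5
        positivity
    · have hε0 : 0 ≤ ε := nonneg_of_mul_nonneg_left hεF h0
      rw [hh, one_div_sqrt_sq]
      calc 1 / (L : ℝ) / 2 * (ε * ‖F * cfc g2 w‖) ≤ 1 / (L : ℝ) / 2 * (ε * (‖F‖ * Bg)) := by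
            gcongr
        _ = _ := by ring
  exact (norm_add_le _ _).trans ((add_le_add ((norm_sub_le _ _).trans (add_le_add a1 a2)) a3).trans
    (le_of_eq (by ring)))

/-- The comparison with the random walk. -/
theorem lindeberg (hΦ : IsPos Φ) (h1 : Φ 1 = 1) (hB : 0 ≤ B) {g g1 g2 : ℝ → ℝ} {Bg : ℝ}
    (s : Smooth3 g g1 g2 Bg) {F : M} (hFb : F ∈ base) :
    ‖Φ (F * cfc g (psum c.X L)) - (((stepAvg (1 / Real.sqrt L))^[L] g 0 : ℝ) : ℂ) * Φ F‖
      ≤ (L : ℝ) * (‖F‖ * Bg * ((1 / Real.sqrt L) ^ 3 * (B ^ 3 + 1) + ε / (2 * L))) := by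
  have key : ∀ n ≤ L, ∀ (g g1 g2 : ℝ → ℝ), Smooth3 g g1 g2 Bg →
      ‖Φ (F * cfc g (psum c.X n)) - (((stepAvg (1 / Real.sqrt L))^[n] g 0 : ℝ) : ℂ) * Φ F‖
        ≤ (n : ℝ) * (‖F‖ * Bg * ((1 / Real.sqrt L) ^ 3 * (B ^ 3 + 1) + ε / (2 * L))) := by
    intro n
    induction n with
    | zero =>
      intro _ g g1 g2 _
      simp [psum_zero, Algebra.algebraMap_eq_smul_one]
    | succ n ih =>
      intro hn g g1 g2 s
      have h2 := ih (Nat.le_of_succ_le hn) _ _ _ (s.step (1 / Real.sqrt L))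
      have h3 := c.step_bound hΦ h1 hB s hFb ⟨n, hn⟩
      rw [Function.iterate_succ_apply]
      refine (norm_sub_le_norm_sub_add_norm_sub _ _ _).trans ((add_le_add h3 h2).trans_eq ?_)
      push_cast
      ring
  exact key L le_rfl g g1 g2 s

/-- The second moment of partial sums. -/
lemma sq_psum (h1 : Φ 1 = 1) [Nontrivial M] : ∀ n ≤ L,
    ‖Φ (psum c.X n * psum c.X n) - ((n / L : ℝ) : ℂ)‖ ≤ ε * (n / L) := by
  intro n
  induction n with
  | zero => intro _; simp [psum_zero]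
  | succ n ih =>
    intro hn
    set l : Fin L := ⟨n, hn⟩
    have h2 := ih (Nat.le_of_succ_le hn)
    have hw : psum c.X n ∈ c.O l := c.psum_mem_O le_rfl
    have e : Φ (psum c.X (n + 1) * psum c.X (n + 1)) = Φ (psum c.X n * psum c.X n)
        + ((1 / L : ℝ) : ℂ) * Φ (c.X l * c.X l) := by
      rw [show psum c.X (n + 1) = psum c.X n + (1 / Real.sqrt L : ℝ) • c.X l from psum_succ c.X l,
        add_mul, mul_add, mul_add, map_add, map_add, map_add,
        show Φ ((1 / Real.sqrt L : ℝ) • c.X l * psum c.X n) = 0 by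
          rw [smul_mul_assoc, map_real_smul, (c.comm l _ hw).symm.eq, c.mean l _ hw, mul_zero],
        show Φ (psum c.X n * (1 / Real.sqrt L : ℝ) • c.X l) = 0 by
          rw [mul_smul_comm, map_real_smul, c.mean l _ hw, mul_zero],
        smul_mul_smul_comm, map_real_smul, one_div_sqrt_sq]
      ring
    have h3 := c.var l 1 (one_mem _)
    rw [one_mul, h1, norm_one, mul_one] at h3
    rw [e, show Φ (psum c.X n * psum c.X n) + ((1 / L : ℝ) : ℂ) * Φ (c.X l * c.X l)
        - (((n + 1 : ℕ) / L : ℝ) : ℂ) = (Φ (psum c.X n * psum c.X n) - ((n / L : ℝ) : ℂ))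
          + ((1 / L : ℝ) : ℂ) * (Φ (c.X l * c.X l) - 1) by push_cast; ring]
    refine (norm_add_le _ _).trans ((add_le_add h2 ?_).trans_eq
      (show ε * (n / L) + 1 / L * ε = ε * (((n + 1 : ℕ) : ℝ) / L) by push_cast; ring))
    rw [norm_mul, Complex.norm_real, Real.norm_eq_abs, abs_of_nonneg (by positivity)]
    exact mul_le_mul_of_nonneg_left h3 (by positivity)

/-- The fourth moment of partial sums. -/
lemma four_psum (hΦ : IsPos Φ) (h1 : Φ 1 = 1) [Nontrivial M] (hε : 0 ≤ ε) (hB : 0 ≤ B) : ∀ n ≤ L,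
    (Φ (psum c.X n * psum c.X n * (psum c.X n * psum c.X n))).re
      ≤ 3 * (1 + ε) ^ 2 * (n / L) ^ 2 + n * ((1 / L) ^ 2 * B ^ 4) := by
  intro n
  induction n with
  | zero => intro _; simp [psum_zero]
  | succ n ih =>
    intro hn
    set l : Fin L := ⟨n, hn⟩
    have h2 := ih (Nat.le_of_succ_le hn)
    set w := psum c.X n with hwdef
    have hw : w ∈ c.O l := c.psum_mem_O le_rfl
    have hws : star w = w := (psum_sa c.sa n).star_eq
    set h : ℝ := 1 / Real.sqrt L with hh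
    have hwX : Commute w (c.X l) := c.comm l _ hw
    have z1 : Φ (w * w * w * c.X l) = 0 := c.mean l _ (mul_mem (mul_mem hw hw) hw)
    have z3 : Φ (w * (c.X l * c.X l * c.X l)) = 0 := by
      rw [hwdef, psum, smul_mul_assoc, map_real_smul, sum_mul, map_sum]
      refine mul_eq_zero_of_right _ (Finset.sum_eq_zero fun i hi => ?_)
      have hil : l ≠ i := fun e => by
        have := (mem_filter.1 hi).2
        rw [← e] at this
        exact lt_irrefl _ this
      have hxi : c.X l * c.X l * c.X l ∈ c.O i :=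
        mul_mem (mul_mem (c.other i l hil) (c.other i l hil)) (c.other i l hil)
      rw [← (c.comm i _ hxi).eq]
      exact c.mean i _ hxi
    have e : Φ (psum c.X (n + 1) * psum c.X (n + 1) * (psum c.X (n + 1) * psum c.X (n + 1)))
        = Φ (w * w * (w * w)) + ((6 * (1 / L) : ℝ) : ℂ) * Φ (star w * (c.X l * c.X l) * w)
          + (((1 / L) * (1 / L) : ℝ) : ℂ) * Φ (c.X l * c.X l * (c.X l * c.X l)) := by
      rw [show psum c.X (n + 1) = w + h • c.X l from psum_succ c.X l, hws,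
        ← one_div_sqrt_sq (L := L), ← hh]
      have ex : (w + h • c.X l) * (w + h • c.X l) * ((w + h • c.X l) * (w + h • c.X l))
          = w * w * (w * w) + (4 * h) • (w * w * w * c.X l)
            + (6 * (h * h)) • (w * (c.X l * c.X l) * w)
            + (4 * (h * h * h)) • (w * (c.X l * c.X l * c.X l))
            + (h * h * (h * h)) • (c.X l * c.X l * (c.X l * c.X l)) := by
        simp only [add_mul, mul_add, smul_mul_assoc, mul_smul_comm, mul_assoc,
          hwX.symm.eq, hwX.symm.left_comm]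
        module
      rw [ex]
      simp only [map_add, map_real_smul, z1, z3, mul_zero, add_zero]
    rw [e, Complex.add_re, Complex.add_re, Complex.re_ofReal_mul, Complex.re_ofReal_mul]
    have hb : (Φ (star w * w)).re ≤ (1 + ε) * (n / L) := by
      rw [hws]
      have h5 := (Complex.abs_re_le_norm _).trans (c.sq_psum h1 n (Nat.le_of_succ_le hn))
      rw [← hwdef, Complex.sub_re, Complex.ofReal_re] at h5
      linarith [(abs_le.1 h5).2]
    have h4 : (Φ (star w * (c.X l * c.X l) * w)).re ≤ (1 + ε) * ((1 + ε) * (n / L)) :=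
      (c.var_pos l w hw).trans (mul_le_mul_of_nonneg_left hb (by linarith))
    have h6 : (Φ (c.X l * c.X l * (c.X l * c.X l))).re ≤ B ^ 4 := by
      refine (Complex.re_le_norm _).trans ((hΦ.norm_le_norm h1 _).trans ((norm_mul_le _ _).trans ?_))
      rw [show B ^ 4 = (B * B) * (B * B) by ring]
      have := (norm_mul_le (c.X l) (c.X l)).trans
        (mul_le_mul (c.norm_le l) (c.norm_le l) (norm_nonneg _) hB)
      exact mul_le_mul this this (norm_nonneg _) (mul_nonneg hB hB)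
    refine (add_le_add (add_le_add h2 (mul_le_mul_of_nonneg_left h4 (by positivity)))
      (mul_le_mul_of_nonneg_left h6 (by positivity))).trans ?_
    push_cast
    rw [div_eq_mul_one_div, div_eq_mul_one_div ((n : ℝ) + 1)]
    nlinarith [mul_nonneg (mul_nonneg (sq_nonneg (1 + ε)) (sq_nonneg (1 / (L : ℝ))))
      (zero_le_one (α := ℝ))]

end Chain

end Vale.Agent.P095.General.Core
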