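import Mathlib

/-!
Smooth test functions and the averaging operator of a simple random walk, for the Lindeberg
comparison in the chaos core.
-/

noncomputable section

open Polynomial

namespace Vale.Agent.P095.General.Core

/-- A test function with two derivatives, all bounded by B, the second one Lipschitz. -/
structure Smooth3 (g g1 g2 : ℝ → ℝ) (B : ℝ) : Prop where
  d1 : ∀ x, HasDerivAt g (g1 x) x
  d2 : ∀ x, HasDerivAt g1 (g2 x) x
  b0 : ∀ x, |g x| ≤ B
  b1 : ∀ x, |g1 x| ≤ B
  b2 : ∀ x, |g2 x| ≤ B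
  lip : ∀ x y, |g2 x - g2 y| ≤ B * |x - y|

/-- One step of the random walk. -/
def stepAvg (h : ℝ) (g : ℝ → ℝ) (x : ℝ) : ℝ := (g (x + h) + g (x - h)) / 2

lemma abs_half_le {a b B : ℝ} (ha : |a| ≤ B) (hb : |b| ≤ B) : |(a + b) / 2| ≤ B := by
  rw [abs_div, abs_two, div_le_iff₀ two_pos]
  exact (abs_add_le a b).trans (by linarith)

lemma Smooth3.step {g g1 g2 : ℝ → ℝ} {B : ℝ} (s : Smooth3 g g1 g2 B) (h : ℝ) :
    Smooth3 (stepAvg h g) (stepAvg h g1) (stepAvg h g2) B where
  d1 x := ((((s.d1 (x + h)).comp_add_const x h).add ((s.d1 (x - h)).comp_sub_const x h))).div_const 2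
  d2 x := ((((s.d2 (x + h)).comp_add_const x h).add ((s.d2 (x - h)).comp_sub_const x h))).div_const 2
  b0 x := abs_half_le (s.b0 _) (s.b0 _)
  b1 x := abs_half_le (s.b1 _) (s.b1 _)
  b2 x := abs_half_le (s.b2 _) (s.b2 _)
  lip x y := by
    have h1 := s.lip (x + h) (y + h)
    have h2 := s.lip (x - h) (y - h)
    rw [add_sub_add_right_eq_sub] at h1
    rw [sub_sub_sub_cancel_right] at h2
    rw [stepAvg, stepAvg, div_sub_div_same, abs_div, abs_two, div_le_iff₀ two_pos,
      add_sub_add_comm]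
    exact (abs_add_le _ _).trans (by linarith)

lemma Smooth3.nonneg {g g1 g2 : ℝ → ℝ} {B : ℝ} (s : Smooth3 g g1 g2 B) : 0 ≤ B :=
  (abs_nonneg _).trans (s.b0 0)

lemma Smooth3.continuous {g g1 g2 : ℝ → ℝ} {B : ℝ} (s : Smooth3 g g1 g2 B) :
    Continuous g ∧ Continuous g1 ∧ Continuous g2 :=
  ⟨continuous_iff_continuousAt.2 fun x => (s.d1 x).continuousAt,
    continuous_iff_continuousAt.2 fun x => (s.d2 x).continuousAt,
    (LipschitzWith.of_dist_le_mul (K := ⟨B, s.nonneg⟩) fun x y => s.lip x y).continuous⟩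

/-- Taylor expansion of order two with cubic error. -/
lemma Smooth3.taylor {g g1 g2 : ℝ → ℝ} {B : ℝ} (s : Smooth3 g g1 g2 B) (w y : ℝ) :
    |g (w + y) - g w - g1 w * y - g2 w * (y * y / 2)| ≤ B * |y| ^ 3 := by
  set I : Set ℝ := Set.uIcc 0 y with hI
  have hB := s.nonneg
  have hmem : ∀ t ∈ I, |t| ≤ |y| := fun t ht => by
    have := Set.abs_sub_le_of_uIcc_subset_uIcc (Set.uIcc_subset_uIcc Set.left_mem_uIcc ht)
    simpa using this
  have hcv : Convex ℝ I := convex_uIcc 0 y
  set e1 : ℝ → ℝ := fun t => g1 (w + t) - g1 w - g2 w * t with he1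
  have hd1 : ∀ t, HasDerivAt e1 (g2 (w + t) - g2 w) t := fun t => by
    have h1 := ((s.d2 (w + t)).comp_const_add w t).sub_const (g1 w)
    have h2 := (hasDerivAt_id t).const_mul (g2 w)
    simpa [he1] using h1.fun_sub h2
  have hb1 : ∀ t ∈ I, |e1 t| ≤ B * |y| * |y| := fun t ht => by
    have h := hcv.norm_image_sub_le_of_norm_hasDerivWithin_le (f := e1) (C := B * |y|)
      (fun u _ => (hd1 u).hasDerivWithinAt) (fun u hu => by
        rw [Real.norm_eq_abs]
        refine (s.lip _ _).trans ?_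
        rw [add_sub_cancel_left]
        exact mul_le_mul_of_nonneg_left (hmem u hu) hB) Set.left_mem_uIcc ht
    have e0 : e1 0 = 0 := by simp [he1]
    rw [e0, sub_zero, sub_zero, Real.norm_eq_abs, Real.norm_eq_abs] at h
    exact h.trans (mul_le_mul_of_nonneg_left (hmem t ht) (mul_nonneg hB (abs_nonneg y)))
  set e0 : ℝ → ℝ := fun t => g (w + t) - g w - g1 w * t - g2 w * (t * t / 2) with he0
  have hd0 : ∀ t, HasDerivAt e0 (e1 t) t := fun t => by
    have h1 := ((s.d1 (w + t)).comp_const_add w t).sub_const (g w)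
    have h2 := (hasDerivAt_id t).const_mul (g1 w)
    have h3 := (((hasDerivAt_id t).fun_mul (hasDerivAt_id t)).div_const 2).const_mul (g2 w)
    have h4 := (h1.fun_sub h2).fun_sub h3
    exact h4.congr_deriv (by simp only [he1, id_eq]; ring)
  have h := hcv.norm_image_sub_le_of_norm_hasDerivWithin_le (f := e0) (C := B * |y| * |y|)
    (fun u _ => (hd0 u).hasDerivWithinAt) (fun u hu => by
      rw [Real.norm_eq_abs]; exact hb1 u hu) Set.left_mem_uIcc (Set.right_mem_uIcc : y ∈ I)
  have e00 : e0 0 = 0 := by simp [he0]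
  rw [e00, sub_zero, sub_zero, Real.norm_eq_abs, Real.norm_eq_abs] at h
  exact h.trans_eq (by ring)

lemma tanh_facts (x : ℝ) : HasDerivAt Real.tanh (1 - Real.tanh x ^ 2) x ∧ |Real.tanh x| ≤ 1 := by
  have hc := Real.cosh_pos x
  refine ⟨?_, ?_⟩
  · have h := (Real.hasDerivAt_sinh x).fun_div (Real.hasDerivAt_cosh x) hc.ne'
    have e : Real.tanh = fun y => Real.sinh y / Real.cosh y :=
      funext Real.tanh_eq_sinh_div_cosh
    rw [← e] at h
    exact h.congr_deriv (by rw [Real.tanh_eq_sinh_div_cosh]; field_simp)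
  · rw [Real.tanh_eq_sinh_div_cosh, abs_div, abs_of_pos hc, div_le_one hc, abs_le]
    have h1 := Real.cosh_sub_sinh x
    have h2 := Real.cosh_add_sinh x
    constructor <;> linarith [Real.exp_pos x, Real.exp_pos (-x)]

/-- A bound for a polynomial on the unit interval. -/
def polyBound (P : ℝ[X]) : ℝ := ∑ i ∈ P.support, |P.coeff i|

lemma abs_eval_le (P : ℝ[X]) {t : ℝ} (ht : |t| ≤ 1) : |P.eval t| ≤ polyBound P := by
  rw [Polynomial.eval_eq_sum, Polynomial.sum, polyBound]
  refine (Finset.abs_sum_le_sum_abs _ _).trans (Finset.sum_le_sum fun i _ => ?_)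
  rw [abs_mul, abs_pow]
  exact mul_le_of_le_one_right (abs_nonneg _) (pow_le_one₀ (abs_nonneg _) ht)

/-- Polynomials in the hyperbolic tangent are test functions. -/
lemma smooth_tanh (P : ℝ[X]) (k : ℝ) :
    ∃ g1 g2 : ℝ → ℝ, ∃ B : ℝ, Smooth3 (fun x => P.eval (Real.tanh (k * x))) g1 g2 B := by
  let D : ℝ[X] → ℝ[X] := fun Q => C k * ((1 - X ^ 2) * derivative Q)
  have hd : ∀ (Q : ℝ[X]) x, HasDerivAt (fun x => Q.eval (Real.tanh (k * x)))
      ((D Q).eval (Real.tanh (k * x))) x := fun Q x => by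
    have h1 := (tanh_facts (k * x)).1.comp x (((hasDerivAt_id x).const_mul k))
    have h2 := (Q.hasDerivAt (Real.tanh (k * x))).comp x h1
    exact h2.congr_deriv (by simp [D]; ring)
  have hb : ∀ (Q : ℝ[X]) x, |Q.eval (Real.tanh (k * x))| ≤ polyBound Q := fun Q x =>
    abs_eval_le Q (tanh_facts _).2
  refine ⟨_, _, max (max (polyBound P) (polyBound (D P))) (max (polyBound (D (D P)))
    (polyBound (D (D (D P))))), hd P, hd (D P), fun x => (hb P x).trans ?_, fun x => (hb _ x).trans ?_,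
    fun x => (hb _ x).trans ?_, fun x y => ?_⟩
  · exact (le_max_left _ _).trans (le_max_left _ _)
  · exact (le_max_right _ _).trans (le_max_left _ _)
  · exact (le_max_left _ _).trans (le_max_right _ _)
  · have h := convex_univ.norm_image_sub_le_of_norm_hasDerivWithin_le
      (f := fun x => (D (D P)).eval (Real.tanh (k * x)))
      (f' := fun x => (D (D (D P))).eval (Real.tanh (k * x))) (C := polyBound (D (D (D P))))
      (fun u _ => (hd _ u).hasDerivWithinAt) (fun u _ => by rw [Real.norm_eq_abs]; exact hb _ u)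
      (Set.mem_univ y) (Set.mem_univ x)
    rw [Real.norm_eq_abs, Real.norm_eq_abs] at h
    exact h.trans (mul_le_mul_of_nonneg_right ((le_max_right _ _).trans (le_max_right _ _))
      (abs_nonneg _))

/-- The walk preserves odd functions. -/
lemma step_iter_odd {g : ℝ → ℝ} (hg : ∀ x, g (-x) = -g x) (h : ℝ) :
    ∀ n x, (stepAvg h)^[n] g (-x) = -(stepAvg h)^[n] g x := by
  intro n
  induction n with
  | zero => exact hg
  | succ n ih =>
    intro x
    simp only [Function.iterate_succ_apply', stepAvg]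
    rw [show -x + h = -(x - h) by ring, show -x - h = -(x + h) by ring, ih, ih]
    ring

lemma step_iter_zero {g : ℝ → ℝ} (hg : ∀ x, g (-x) = -g x) (h : ℝ) (n : ℕ) :
    (stepAvg h)^[n] g 0 = 0 := by
  have := step_iter_odd hg h n 0
  rw [neg_zero] at this
  linarith

/-- The walk in terms of binomial coefficients. -/
lemma step_iter_eq (g : ℝ → ℝ) (h : ℝ) : ∀ (n : ℕ) (x : ℝ), (stepAvg h)^[n] g x =
    ∑ j ∈ Finset.range (n + 1), (n.choose j : ℝ) / 2 ^ n * g (x + ((2 * j : ℝ) - n) * h) := by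
  intro n
  induction n with
  | zero => intro x; simp
  | succ n ih =>
    intro x
    rw [Function.iterate_succ_apply', stepAvg, ih, ih, Finset.sum_range_succ' _ (n + 1)]
    simp only [Nat.choose_succ_succ, Nat.cast_add, add_div, add_mul, Finset.sum_add_distrib]
    rw [Finset.sum_range_succ (fun j => (n.choose (j + 1) : ℝ) / _ * _) n,
      Finset.sum_range_succ' (fun j => (n.choose j : ℝ) / _ * g (x - h + _)) n]
    simp only [Nat.choose_succ_self, Nat.cast_zero, zero_div, zero_mul, add_zero,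
      Nat.choose_zero_right, Nat.cast_one, Finset.sum_div]
    rw [add_assoc]
    congr 1
    · refine Finset.sum_congr rfl fun j _ => ?_
      rw [show x + h + ((2 * j : ℝ) - n) * h
          = x + ((2 * ((j + 1 : ℕ) : ℝ)) - ((n + 1 : ℕ) : ℝ)) * h by push_cast; ring]
      push_cast
      ring
    · rw [add_div, Finset.sum_div]
      congr 1
      · refine Finset.sum_congr rfl fun j _ => ?_
        rw [show x - h + ((2 * ((j + 1 : ℕ) : ℝ)) - n) * h
            = x + ((2 * ((j + 1 : ℕ) : ℝ)) - ((n + 1 : ℕ) : ℝ)) * h by push_cast; ring]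
        push_cast
        ring
      · rw [show x - h + (2 * 0 - (n : ℝ)) * h = x + (2 * 0 - ((n + 1 : ℕ) : ℝ)) * h by
          push_cast; ring]
        push_cast
        ring

/-- The central binomial coefficient is small. -/
lemma choose_mid_le (n : ℕ) : ((2 * n).choose n : ℝ) ^ 2 * (3 * n + 1) ≤ (4 ^ n) ^ 2 := by
  induction n with
  | zero => simp
  | succ n ih =>
    have h : ((n : ℝ) + 1) * ((2 * (n + 1)).choose (n + 1) : ℝ)
        = 2 * (2 * n + 1) * ((2 * n).choose n : ℝ) := by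
      have := Nat.succ_mul_centralBinom_succ n
      simp only [Nat.centralBinom] at this
      exact_mod_cast this
    have hn : (0 : ℝ) < (n : ℝ) + 1 := by positivity
    refine le_of_mul_le_mul_left ?_ (pow_pos hn 2)
    calc ((n : ℝ) + 1) ^ 2 * (((2 * (n + 1)).choose (n + 1) : ℝ) ^ 2 * (3 * ((n + 1 : ℕ) : ℝ) + 1))
        = (2 * (2 * n + 1)) ^ 2 * ((2 * n).choose n : ℝ) ^ 2 * (3 * n + 4) := by
          rw [← mul_assoc, ← mul_pow, h]; push_cast; ring
      _ ≤ 16 * ((n : ℝ) + 1) ^ 2 * (((2 * n).choose n : ℝ) ^ 2 * (3 * n + 1)) := by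
          have hc : 0 ≤ ((2 * n).choose n : ℝ) ^ 2 := sq_nonneg _
          have : (2 * (2 * (n : ℝ) + 1)) ^ 2 * (3 * n + 4) ≤ 16 * ((n : ℝ) + 1) ^ 2 * (3 * n + 1) := by
            nlinarith [(Nat.cast_nonneg n : (0 : ℝ) ≤ n)]
          nlinarith [mul_le_mul_of_nonneg_left this hc]
      _ ≤ 16 * ((n : ℝ) + 1) ^ 2 * (4 ^ n) ^ 2 := mul_le_mul_of_nonneg_left ih (by positivity)
      _ = _ := by ring

lemma geom_abs_sum_le {q : ℝ} (hq0 : 0 ≤ q) (hq1 : q < 1) (n : ℕ) :
    ∑ j ∈ Finset.range (2 * n + 1), q ^ (((j : ℤ) - n).natAbs) ≤ 2 / (1 - q) := by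
  have hgeo : ∀ m, ∑ i ∈ Finset.range m, q ^ i ≤ 1 / (1 - q) := fun m => by
    rw [geom_sum_eq hq1.ne, ← neg_div_neg_eq, neg_sub, neg_sub]
    exact div_le_div_of_nonneg_right (by linarith [pow_nonneg hq0 m]) (by linarith)
  rw [show 2 * n + 1 = n + (n + 1) by ring, Finset.sum_range_add]
  have e1 : ∑ j ∈ Finset.range n, q ^ (((j : ℤ) - n).natAbs)
      ≤ ∑ j ∈ Finset.range n, q ^ j := by
    rw [← Finset.sum_range_reflect]
    refine Finset.sum_le_sum fun j hj => pow_le_pow_of_le_one hq0 hq1.le ?_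
    have := Finset.mem_range.1 hj
    omega
  have e2 : ∑ j ∈ Finset.range (n + 1), q ^ ((((n + j : ℕ) : ℤ) - n).natAbs)
      = ∑ j ∈ Finset.range (n + 1), q ^ j := Finset.sum_congr rfl fun j _ => by
    congr 1
    omega
  rw [e2, show (2 : ℝ) / (1 - q) = 1 / (1 - q) + 1 / (1 - q) by ring]
  exact add_le_add (e1.trans (hgeo n)) (hgeo (n + 1))

/-- The fourth power of sech has small mean along the walk. -/
lemma walk_sech_le {k : ℝ} (hk : 1 ≤ k) {n : ℕ} (hn : 0 < n) {h : ℝ}
    (hh : h = 1 / Real.sqrt (2 * n)) :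
    (stepAvg h)^[2 * n] (fun x => (1 - Real.tanh (k * x) ^ 2) ^ 2) 0 ≤ 4 / k + 8 * h := by
  have hn' : (0 : ℝ) < 2 * n := by positivity
  have hh0 : 0 < h := by rw [hh]; positivity
  set d : ℝ := 2 * k * h with hd
  have hd0 : 0 < d := by positivity
  set q : ℝ := Real.exp (-d) with hq
  have hq1 : q < 1 := Real.exp_lt_one_iff.2 (by linarith)
  have hpoint : ∀ y : ℝ, (1 - Real.tanh y ^ 2) ^ 2 ≤ 2 * Real.exp (-|y|) := fun y => by
    have hc := Real.cosh_pos y
    have e : (1 - Real.tanh y ^ 2) ^ 2 = 1 / Real.cosh y ^ 4 := by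
      rw [Real.tanh_eq_sinh_div_cosh, div_pow, one_sub_div (by positivity), Real.cosh_sq y,
        add_sub_cancel_left, div_pow, one_pow, ← Real.cosh_sq y, ← pow_mul]
    have h1 : Real.exp |y| ≤ 2 * Real.cosh y := by
      rw [Real.cosh_eq]
      rcases abs_cases y with ⟨h, _⟩ | ⟨h, _⟩ <;> rw [h] <;>
        linarith [Real.exp_pos y, Real.exp_pos (-y)]
    rw [e, Real.exp_neg, ← div_eq_mul_inv, div_le_div_iff₀ (pow_pos hc 4) (Real.exp_pos _), one_mul]
    exact h1.trans (mul_le_mul_of_nonneg_left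
      (le_self_pow₀ (Real.one_le_cosh y) (by norm_num)) two_pos.le)
  have hM : ∀ j, ((2 * n).choose j : ℝ) / 2 ^ (2 * n) ≤ 2 * h := fun j => by
    have h1 : ((2 * n).choose j : ℝ) ≤ ((2 * n).choose n : ℝ) := by
      have := Nat.choose_le_middle j (2 * n)
      rw [Nat.mul_div_cancel_left n two_pos] at this
      exact_mod_cast this
    rw [pow_mul, show (2 : ℝ) ^ 2 = 4 by norm_num, div_le_iff₀ (by positivity)]
    refine h1.trans ?_
    have h2 := choose_mid_le n
    have h3 : h ^ 2 = 1 / (2 * n) := by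
      rw [hh, div_pow, Real.sq_sqrt hn'.le, one_pow]
    refine pow_le_pow_iff_left₀ (Nat.cast_nonneg _) (by positivity) two_ne_zero |>.1 ?_
    rw [mul_pow, mul_pow, h3]
    have h4 : ((2 * n).choose n : ℝ) ^ 2 ≤ (4 ^ n) ^ 2 / (3 * n + 1) :=
      (le_div_iff₀ (by positivity)).2 h2
    refine h4.trans ?_
    rw [show (2 : ℝ) ^ 2 * (1 / (2 * n)) * (4 ^ n) ^ 2 = (4 ^ n) ^ 2 / (n / 2) by field_simp]
    gcongr
    linarith [(Nat.cast_nonneg n : (0 : ℝ) ≤ n)]
  rw [step_iter_eq]
  calc ∑ j ∈ Finset.range (2 * n + 1), ((2 * n).choose j : ℝ) / 2 ^ (2 * n) *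
        (1 - Real.tanh (k * (0 + ((2 * j : ℝ) - ((2 * n : ℕ) : ℝ)) * h)) ^ 2) ^ 2
      ≤ ∑ j ∈ Finset.range (2 * n + 1), 2 * h * (2 * q ^ (((j : ℤ) - n).natAbs)) :=
        Finset.sum_le_sum fun j _ => by
          refine mul_le_mul (hM j) ((hpoint _).trans_eq ?_) (sq_nonneg _) (by positivity)
          have e : |k * (0 + ((2 * j : ℝ) - ((2 * n : ℕ) : ℝ)) * h)|
              = (((j : ℤ) - n).natAbs : ℝ) * d := by
            rw [Nat.cast_natAbs, Int.cast_abs]
            push_cast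
            rw [show k * (0 + (2 * (j : ℝ) - 2 * n) * h) = ((j : ℝ) - n) * d by rw [hd]; ring,
              abs_mul, abs_of_pos hd0]
          rw [e, ← mul_neg, Real.exp_nat_mul, hq]
    _ ≤ 2 * h * (2 * (2 / (1 - q))) := by
        simp only [← Finset.mul_sum]
        gcongr
        exact geom_abs_sum_le (Real.exp_pos _).le hq1 n
    _ ≤ _ := by
        have h1 : d / (1 + d) ≤ 1 - q := by
          have h2 : q ≤ 1 / (1 + d) := by
            rw [hq, Real.exp_neg, ← one_div]
            exact one_div_le_one_div_of_le (by positivity) (by linarith [Real.add_one_le_exp d])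
          rw [show d / (1 + d) = 1 - 1 / (1 + d) by field_simp; ring]
          linarith
        calc 2 * h * (2 * (2 / (1 - q))) ≤ 2 * h * (2 * (2 / (d / (1 + d)))) := by gcongr
          _ = 4 / k + 8 * h := by rw [hd]; field_simp; ring
          
end Vale.Agent.P095.General.Core
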